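import Vale.Agent.P272.F.E.Tr

/-! P272 F/E/Fam (task, block E of helper1). Helper names start with `efam_`.
Plan. `fam_const`: `τ.u j + const` is smooth with the Levi form of `τ.u j` (`fderiv_add_const`; `levi u y 0 = 0`), `TwD.wsub`. `Fam.max`: `Psh.of_le` with the larger function at the point. `le_env`: `le_csSup`, bounded by `u x`. `fam_env`: for a disc `f` in the target and `p` in the family, `Fam.subm` and `circleAverage_mono` give `τ (f 0) + loc p (f 0) ≤ average of τ + loc env`; `csSup_le`; then `SubM.wsub`. -/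

open Metric Set Filter Topology Complex
open scoped ContDiff

noncomputable section

namespace Vale.Agent.P272

variable {n : ℕ} {X : Type} [TopologicalSpace X] {A : Atl n X}

theorem efam_ctn {p : X → ℝ} (hp : Continuous p) (x : X) : CtN p x :=
  Eventually.of_forall fun _ => hp.continuousAt

theorem Atl.fam_const {τ : A.Pot} (hτ : τ.Pos) {u : X → ℝ} {M : ℝ} (hM : ∀ x, M ≤ u x) :
    Atl.Fam τ u fun _ => M := by
  refine ⟨continuous_const, hM, fun x j hj => ?_⟩
  have ht := (A.e j).map_source hj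
  have h1 : ContDiffAt ℝ ∞ (fun y => τ.u j y + M) (A.e j x) :=
    ((τ.sm j).contDiffAt ((A.e j).open_target.mem_nhds ht)).add contDiffAt_const
  refine (twd_of_smooth h1).wsub fun a => ?_
  have e : fderiv ℝ (fun y => τ.u j y + M) = fderiv ℝ (τ.u j) :=
    funext fun y => fderiv_add_const M
  have e' : levi (fun y => τ.u j y + M) (A.e j x) a = levi (τ.u j) (A.e j x) a := by
    unfold levi
    rw [e]
  rw [e']
  rcases eq_or_ne a 0 with rfl | ha
  · simp [levi]
  · exact (hτ j _ ht a ha).le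

theorem Atl.Fam.max {τ : A.Pot} {u p q : X → ℝ} (hp : Atl.Fam τ u p) (hq : Atl.Fam τ u q) :
    Atl.Fam τ u fun x => max (p x) (q x) := by
  have hc : Continuous fun x => Max.max (p x) (q x) := hp.1.max hq.1
  refine ⟨hc, fun x => max_le (hp.2.1 x) (hq.2.1 x), fun x => ?_⟩
  rcases le_total (p x) (q x) with h | h
  · exact (hq.2.2 x).of_le (efam_ctn hq.1 x) (efam_ctn hc x) (max_eq_right h)
      (Eventually.of_forall fun _ => le_max_right _ _)
  · exact (hp.2.2 x).of_le (efam_ctn hp.1 x) (efam_ctn hc x) (max_eq_left h)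
      (Eventually.of_forall fun _ => le_max_left _ _)

theorem Atl.Fam.le_env {τ : A.Pot} {u p : X → ℝ} (hp : Atl.Fam τ u p) (x : X) :
    p x ≤ Atl.envF τ u x := by
  refine le_csSup ⟨u x, ?_⟩ ⟨p, hp, rfl⟩
  rintro _ ⟨q, hq, rfl⟩
  exact hq.2.1 x

theorem Atl.env_le {τ : A.Pot} {u : X → ℝ} (ne : ∃ p, Atl.Fam τ u p) {x : X} {m : ℝ}
    (h : ∀ p, Atl.Fam τ u p → p x ≤ m) : Atl.envF τ u x ≤ m := by
  obtain ⟨p, hp⟩ := ne
  refine csSup_le ⟨p x, p, hp, rfl⟩ ?_
  rintro _ ⟨q, hq, rfl⟩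
  exact h q hq

theorem Atl.exists_fam_gt {τ : A.Pot} {u : X → ℝ} (ne : ∃ p, Atl.Fam τ u p) {x : X} {c : ℝ}
    (hc : c < Atl.envF τ u x) : ∃ p, Atl.Fam τ u p ∧ c < p x := by
  by_contra h
  exact absurd (Atl.env_le ne fun p hp => not_lt.1 fun k => h ⟨p, hp, k⟩) (not_le.2 hc)

theorem efam_int (τ : A.Pot) {p : X → ℝ} (hp : Continuous p) (j : Fin A.N) {f : ℂ → E n}
    (hf : ∀ z, ‖z‖ ≤ 1 → DifferentiableAt ℂ f z ∧ f z ∈ (A.e j).target) :
    CircleIntegrable (fun z => τ.u j (f z) + A.loc p j (f z)) 0 1 := by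
  have h1 : ∀ z ∈ sphere (0 : ℂ) 1, ‖z‖ ≤ 1 := fun z hz => (mem_sphere_zero_iff_norm.1 hz).le
  exact ContinuousOn.circleIntegrable zero_le_one
    (((τ.sm j).continuousOn.add (Atl.loc_cont hp j)).comp
      (fun z hz => (hf z (h1 z hz)).1.continuousAt.continuousWithinAt) fun z hz => (hf z (h1 z hz)).2)

theorem Atl.fam_env {τ : A.Pot} {u : X → ℝ} (ne : ∃ p, Atl.Fam τ u p)
    (hc : Continuous (Atl.envF τ u)) : Atl.Fam τ u (Atl.envF τ u) := by
  refine ⟨hc, fun x => Atl.env_le ne fun p hp => hp.2.1 x, fun x j hj => ?_⟩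
  refine SubM.wsub (U := (A.e j).target) (fun f hf => ?_)
    ((A.e j).open_target.mem_nhds ((A.e j).map_source hj))
  refine add_le_of_le_sub_left (Atl.env_le ne fun p hp => le_sub_left_of_add_le ?_)
  refine (hp.subm j f hf).trans (Real.circleAverage_mono (efam_int τ hp.1 j hf)
    (efam_int τ hc j hf) fun z _ => ?_)
  exact add_le_add le_rfl (hp.le_env _)

end Vale.Agent.P272
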