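import Vale.Agent.P272.F.E.Defs

/-! P272 F/E/Glue (task, block E of helper1). Helper names start with `eglue_`.
Plan. `glue`: `G x = sup'` of `v i x` over the nonempty finite set of `i` with `x ∈ Cl i`. A maximiser `i` at `x` lies in `Op i` (else `h` gives a larger value). Continuity at `x₀`: near `x₀`, `G` equals the `sup'` over the fixed set `J = {i | x₀ ∈ Op i}`: indices with `x₀ ∉ Cl i` are not active near `x₀`, indices with `x₀ ∈ Cl i` and `x₀ ∉ Op i` stay below some `v k`, `k ∈ J` (`ContinuousAt.eventually_lt`); `ContinuousAt.finset_sup'`, `eventually_all`. `isCompact_in`: the set is the image of `closedBall 0 r` under `(e j).symm`. `sm_cont`: near `x`, `u = loc u j ∘ e j`. -/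

open Metric Set Filter Topology Complex
open scoped ContDiff

noncomputable section

namespace Vale.Agent.P272

variable {n : ℕ} {X : Type} [TopologicalSpace X] {A : Atl n X}

theorem glue {ι : Type} [Fintype ι] {Cl Op : ι → Set X} {v : ι → X → ℝ}
    (hC : ∀ i, IsClosed (Cl i)) (hO : ∀ i, IsOpen (Op i)) (sub : ∀ i, Op i ⊆ Cl i)
    (hv : ∀ i, ∀ x ∈ Cl i, ContinuousAt (v i) x) (cov : ∀ x, ∃ k, x ∈ Op k)
    (h : ∀ x i, x ∈ Cl i → x ∉ Op i → ∃ k, x ∈ Op k ∧ v i x < v k x) :
    ∃ G : X → ℝ, Continuous G ∧ (∀ i, ∀ x ∈ Cl i, v i x ≤ G x) ∧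
      ∀ x, ∃ i, x ∈ Op i ∧ G x = v i x := by
  have h1 : ∀ x, ∃ i, x ∈ Op i ∧ ∀ k, x ∈ Cl k → v k x ≤ v i x := by
    intro x
    obtain ⟨k, hk⟩ := cov x
    obtain ⟨i, hi, hm⟩ := Set.exists_max_image {i | x ∈ Cl i} (fun i => v i x) (toFinite _)
      ⟨k, sub k hk⟩
    refine ⟨i, ?_, hm⟩
    by_contra hn
    obtain ⟨l, hl, hlt⟩ := h x i hi hn
    exact absurd (hm l (sub l hl)) (not_le.2 hlt)
  choose m hm1 hm2 using h1
  refine ⟨fun x => v (m x) x, ?_, fun i x hx => hm2 x i hx, fun x => ⟨m x, hm1 x, rfl⟩⟩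
  refine continuous_iff_continuousAt.2 fun x => tendsto_order.2 ⟨fun a ha => ?_, fun b hb => ?_⟩
  · filter_upwards [(hO _).mem_nhds (hm1 x),
      (hv _ x (sub _ (hm1 x))).eventually (lt_mem_nhds ha)] with y h2 h3
    exact h3.trans_le (hm2 y _ (sub _ h2))
  · have h2 : ∀ i, ∀ᶠ y in 𝓝 x, y ∈ Cl i → v i y < b := by
      intro i
      by_cases hx : x ∈ Cl i
      · filter_upwards [(hv i x hx).eventually (gt_mem_nhds ((hm2 x i hx).trans_lt hb))]
          with y h3 _
        exact h3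
      · filter_upwards [(hC i).isOpen_compl.mem_nhds hx] with y h3 h4
        exact absurd h4 h3
    filter_upwards [eventually_all.2 h2] with y h3
    exact h3 _ (sub _ (hm1 y))

theorem Atl.isCompact_in (j : Fin A.N) (c : E n) {r : ℝ} (hr : ‖c‖ + r ≤ 4) :
    IsCompact {x | x ∈ (A.e j).source ∧ ‖A.e j x - c‖ ≤ r} := by
  have h1 : closedBall c r ⊆ (A.e j).target := fun y hy => A.tgt j (by
    rw [mem_closedBall_zero_iff]
    linarith [mem_closedBall_iff_norm.1 hy, norm_le_insert' y c])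
  have h2 : {x | x ∈ (A.e j).source ∧ ‖A.e j x - c‖ ≤ r} = (A.e j).symm '' closedBall c r := by
    ext x
    constructor
    · rintro ⟨h3, h4⟩
      exact ⟨A.e j x, mem_closedBall_iff_norm.2 h4, (A.e j).left_inv h3⟩
    · rintro ⟨y, hy, rfl⟩
      refine ⟨(A.e j).map_target (h1 hy), ?_⟩
      rw [(A.e j).right_inv (h1 hy)]
      exact mem_closedBall_iff_norm.1 hy
  rw [h2]
  exact (isCompact_closedBall c r).image_of_continuousOn ((A.e j).continuousOn_symm.mono h1)

theorem Atl.isOpen_in (j : Fin A.N) (c : E n) (r : ℝ) :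
    IsOpen {x | x ∈ (A.e j).source ∧ ‖A.e j x - c‖ < r} := by
  have h2 : {x | x ∈ (A.e j).source ∧ ‖A.e j x - c‖ < r} =
      (A.e j).source ∩ A.e j ⁻¹' ball c r := by
    ext x
    exact and_congr_right fun _ => mem_ball_iff_norm.symm
  rw [h2]
  exact (A.e j).isOpen_inter_preimage isOpen_ball

theorem Atl.sm_cont {u : X → ℝ} (hu : A.Sm u) : Continuous u := by
  refine continuous_iff_continuousAt.2 fun x => ?_
  obtain ⟨j, hj, -⟩ := A.cov x
  have h1 : ContinuousAt (A.loc u j) (A.e j x) :=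
    (hu j).continuousOn.continuousAt ((A.e j).open_target.mem_nhds ((A.e j).map_source hj))
  refine (h1.comp ((A.e j).continuousAt hj)).congr ?_
  filter_upwards [(A.e j).open_source.mem_nhds hj] with y hy
  exact congrArg u ((A.e j).left_inv hy)

end Vale.Agent.P272
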