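import Vale.Agent.P272.F.E.Bump0
import Vale.Agent.P272.F.E.Fam
import Vale.Agent.P272.F.E.Glue

/-! P272 F/E/Bump (task, block E of helper1). Helper names start with `ebump_`.
Plan. By contradiction; `bump0` with `t = τ.u j`, `R = 1`. `glue` with `ι = Bool`: `Cl true = Op true = univ`, `v true = φ`; `Cl false = {x ∈ source j, ‖e j x - y‖ ≤ r}` (`isCompact_in`), `Op false` the open version, `v false = q ∘ e j`. `G` is in the family (`Psh.of_le`; for `v false` use `psh_of_chart`: `loc (q ∘ e j) j = q` on the target, `WSub.of_le`), so `q y ≤ G ≤ envF = φ` at `(e j).symm y`. -/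

open Metric Set Filter Topology Complex
open scoped ContDiff

noncomputable section

namespace Vale.Agent.P272

variable {n : ℕ} {X : Type} [TopologicalSpace X] [T2Space X] {A : Atl n X}

theorem Atl.bump (τ : A.Pot) {u : X → ℝ} (hu : Continuous u)
    (hφ : Atl.Fam τ u (Atl.envF τ u)) {j : Fin A.N} {y : E n} (hy : ‖y‖ < 1)
    (h2 : TwD (A.loc (Atl.envF τ u) j) y) (lt : A.loc (Atl.envF τ u) j y < A.loc u j y) :
    ∃ a, a ≠ 0 ∧ levi (τ.u j) y a + levi (A.loc (Atl.envF τ u) j) y a ≤ 0 := by
  by_contra hn
  push Not at hn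
  have hyt : y ∈ (A.e j).target := A.tgt j (mem_closedBall_zero_iff.2 (by linarith))
  have ho := (A.e j).open_target
  have ht : ∀ z ∈ (A.e j).target, ContDiffAt ℝ ∞ (τ.u j) z := fun z hz =>
    (τ.sm j).contDiffAt (ho.mem_nhds hz)
  obtain ⟨q, r, r0, r1, qc, q1, q2, q3⟩ := bump0 (mem_of_superset (ho.mem_nhds hyt) ht) h2
    ((Atl.loc_cont hu j).continuousAt (ho.mem_nhds hyt)) lt hn one_pos
  have hw : ∀ x ∈ (A.e j).source, ContinuousAt (fun x => q (A.e j x)) x := fun x hx =>
    qc.continuousAt.comp ((A.e j).continuousAt hx)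
  have hl : ∀ (p : X → ℝ), ∀ x ∈ (A.e j).source, A.loc p j (A.e j x) = p x := fun p x hx =>
    congrArg p ((A.e j).left_inv hx)
  obtain ⟨G, Gc, G1, G2⟩ := glue (ι := Bool)
    (Cl := fun b => cond b univ {x | x ∈ (A.e j).source ∧ ‖A.e j x - y‖ ≤ r})
    (Op := fun b => cond b univ {x | x ∈ (A.e j).source ∧ ‖A.e j x - y‖ < r})
    (v := fun b => cond b (Atl.envF τ u) fun x => q (A.e j x))
    (fun b => by
      cases b
      · exact (Atl.isCompact_in j y (by linarith)).isClosed
      · exact isClosed_univ)
    (fun b => by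
      cases b
      · exact Atl.isOpen_in j y r
      · exact isOpen_univ)
    (fun b => by
      cases b
      · exact fun x hx => ⟨hx.1, hx.2.le⟩
      · exact subset_rfl)
    (fun b x hx => by
      cases b
      · exact hw x hx.1
      · exact hφ.1.continuousAt)
    (fun x => ⟨true, mem_univ x⟩)
    (fun x b hx hx' => by
      cases b
      · refine ⟨true, mem_univ x, ?_⟩
        have h1 := q2 _ (le_antisymm hx.2 (not_lt.1 fun h => hx' ⟨hx.1, h⟩))
        rwa [hl _ x hx.1] at h1
      · exact absurd (mem_univ x) hx')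
  have cG : ∀ x, CtN G x := fun x => Eventually.of_forall fun z => Gc.continuousAt
  have hG : Atl.Fam τ u G := by
    refine ⟨Gc, fun x => ?_, fun x => ?_⟩
    · obtain ⟨b, hb, e⟩ := G2 x
      rw [e]
      cases b
      · have h1 := (q3 _ hb.2.le).1
        rwa [hl _ x hb.1] at h1
      · exact hφ.2.1 x
    · obtain ⟨b, hb, e⟩ := G2 x
      cases b
      · have c1 : CtN (fun x => q (A.e j x)) x :=
          mem_of_superset ((A.e j).open_source.mem_nhds hb.1) hw
        have hx := ho.mem_nhds ((A.e j).map_source hb.1)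
        have p1 : Atl.Psh τ (fun x => q (A.e j x)) x := by
          refine Atl.psh_of_chart τ c1 hb.1 ((q3 _ hb.2.le).2.of_le ?_ ?_ ?_ ?_)
          · filter_upwards [hx] with z hz using (ht z hz).continuousAt.add qc.continuousAt
          · filter_upwards [hx, Atl.loc_ctn c1 hb.1] with z hz hc using
              (ht z hz).continuousAt.add hc
          · exact congrArg (τ.u j (A.e j x) + ·) (hl _ x hb.1)
          · filter_upwards [hx] with z hz
            exact le_of_eq (congrArg (fun w => τ.u j z + q w) ((A.e j).right_inv hz).symm)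
        refine p1.of_le c1 (cG x) e ?_
        filter_upwards [(Atl.isOpen_in j y r).mem_nhds hb] with z hz using
          G1 false z ⟨hz.1, hz.2.le⟩
      · exact (hφ.2.2 x).of_le (Eventually.of_forall fun z => hφ.1.continuousAt) (cG x) e
          (Eventually.of_forall fun z => G1 true z (mem_univ z))
  have h3 : q (A.e j ((A.e j).symm y)) ≤ G ((A.e j).symm y) :=
    G1 false _ ⟨(A.e j).map_target hyt, by
      rw [(A.e j).right_inv hyt, sub_self, norm_zero]
      exact r0.le⟩
  rw [(A.e j).right_inv hyt] at h3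
  exact absurd (h3.trans (hG.le_env _)) (not_le.2 q1)

end Vale.Agent.P272
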