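import Vale.Agent.P272.F.E.Avg

/-! P272 F/E/Hes (task, block E of helper1). Helper names start with `ehes_`.
Plan. `D = fderiv (fderiv v) y`. `TwD.sec` and `h2` give `D a a ≤ 2 K ‖a‖^2` (`le_of_tendsto`). `TwD.avg` for the disc `z ↦ y + z • a` and `h3` with `r • a` (`circleAverage_eq_circleAverage_zero_one`) give `0 ≤ levi v y a`, so `D a a ≥ - D (I a) (I a) ≥ - 2 K ‖a‖^2`. Symmetry (`ContDiffAt.isSymmSndFDerivAt`) and polarisation `4 D a b = D (a + b) (a + b) - D (a - b) (a - b)` give `|D a b| ≤ 2 K` for unit vectors (`parallelogram_law_with_norm`), so `‖D‖ ≤ 2 K` (`ContinuousLinearMap.opNorm_le_of_unit_norm` twice); `Convex.norm_image_sub_le_of_norm_fderiv_le` on the ball. -/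

open Metric Set Filter Topology Complex
open scoped ContDiff

noncomputable section

namespace Vale.Agent.P272

variable {n : ℕ}

theorem ehes_small (a : E n) {d : ℝ} (hd : 0 < d) : ∀ᶠ t in 𝓝[>] (0 : ℝ), t * ‖a‖ < d := by
  have h1 : Tendsto (fun t : ℝ => t * ‖a‖) (𝓝 0) (𝓝 (0 * ‖a‖)) := tendsto_id.mul_const _
  exact (h1.eventually_lt_const (by rwa [zero_mul])).filter_mono nhdsWithin_le_nhds

theorem ehes_up {v : E n → ℝ} {y : E n} (hv : TwD v y) {K d : ℝ} (hd : 0 < d)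
    (h2 : ∀ h, ‖h‖ ≤ d → sy v (-1) y h ≤ v y + K * ‖h‖ ^ 2) (a : E n) :
    fderiv ℝ (fderiv ℝ v) y a a ≤ 2 * K * ‖a‖ ^ 2 := by
  refine le_of_tendsto (hv.sec a) ?_
  filter_upwards [ehes_small a hd, self_mem_nhdsWithin] with t h1 (h0 : 0 < t)
  have h3 : ‖t • a‖ = t * ‖a‖ := by rw [norm_smul, Real.norm_of_nonneg h0.le]
  have h4 := h2 (t • a) (h3.trans_le h1.le)
  rw [sy, h3] at h4
  rw [div_le_iff₀ (by positivity)]
  linarith

theorem ehes_lo {v : E n → ℝ} {y : E n} (hv : TwD v y)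
    (h3 : ∀ a, ‖a‖ ≤ 1 → v y ≤ Real.circleAverage (fun z : ℂ => v (y + z • a)) 0 1) (a : E n) :
    0 ≤ levi v y a := by
  refine le_of_forall_pos_le_add fun δ hδ => ?_
  have h1 : ∀ z : ℂ, HasDerivAt (fun z : ℂ => y + z • a) ((1 : ℂ) • a) z := fun z =>
    ((hasDerivAt_id z).smul_const a).const_add y
  have h2 := hv.avg (f := fun z : ℂ => y + z • a)
    (Eventually.of_forall fun z => (h1 z).differentiableAt) (by simp) hδ
  obtain ⟨r, ⟨h4, h5⟩, h0⟩ := ((h2.and (ehes_small a one_pos)).and self_mem_nhdsWithin).exists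
  have h0' : 0 < r := h0
  have h6 := h3 ((r : ℂ) • a) (by
    rw [norm_smul, Complex.norm_real, Real.norm_of_nonneg h0'.le]
    exact h5.le)
  have h7 : (fun z : ℂ => v (y + z • (r : ℂ) • a)) = fun z : ℂ => v (y + (r * z + 0) • a) := by
    funext z
    rw [smul_smul, add_zero, mul_comm]
  rw [(h1 0).deriv, one_smul, Real.circleAverage_eq_circleAverage_zero_one, ← h7] at h4
  have h8 := (abs_le.1 h4).2
  have h9 : 0 < r ^ 2 := by positivity
  refine le_of_mul_le_mul_left ?_ h9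
  linarith

theorem ehes_norm {D : E n →L[ℝ] E n →L[ℝ] ℝ} {C : ℝ} (hC : 0 ≤ C) (hs : ∀ a b, D a b = D b a)
    (h : ∀ a, |D a a| ≤ C * ‖a‖ ^ 2) : ‖D‖ ≤ C := by
  refine ContinuousLinearMap.opNorm_le_of_unit_norm hC fun a ha =>
    ContinuousLinearMap.opNorm_le_of_unit_norm hC fun b hb => ?_
  have h1 := abs_le.1 (h (a + b))
  have h2 := abs_le.1 (h (a - b))
  have h3 := parallelogram_law_with_norm ℂ a b
  rw [ha, hb] at h3
  have h4 : C * ‖a + b‖ ^ 2 + C * ‖a - b‖ ^ 2 = 4 * C := by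
    rw [← mul_add]
    linear_combination C * h3
  simp only [map_add, map_sub, add_apply, sub_apply,
    hs b a] at h1 h2
  rw [Real.norm_eq_abs, abs_le]
  constructor <;> linarith [h1.1, h1.2, h2.1, h2.2]

theorem hes_bound {v : E n → ℝ} (hv : ContDiff ℝ ∞ v) {K d : ℝ} (hK : 0 ≤ K) (hd : 0 < d)
    (h2 : ∀ y h, ‖y‖ ≤ 1 → ‖h‖ ≤ d → sy v (-1) y h ≤ v y + K * ‖h‖ ^ 2)
    (h3 : ∀ y a, ‖y‖ ≤ 1 → ‖a‖ ≤ 1 → v y ≤ Real.circleAverage (fun z : ℂ => v (y + z • a)) 0 1) :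
    ∀ y ∈ ball (0 : E n) 1, ∀ y' ∈ ball (0 : E n) 1,
      ‖fderiv ℝ v y - fderiv ℝ v y'‖ ≤ 2 * K * ‖y - y'‖ := by
  have hD : ∀ y ∈ ball (0 : E n) 1, ‖fderiv ℝ (fderiv ℝ v) y‖ ≤ 2 * K := by
    intro y hy
    have hy1 : ‖y‖ ≤ 1 := (mem_ball_zero_iff.1 hy).le
    have hT : TwD v y := twd_of_smooth hv.contDiffAt
    have h4 := ehes_up hT hd fun h => h2 y h hy1
    refine ehes_norm (by positivity) (fun a b => (hv.contDiffAt.isSymmSndFDerivAt
      (by simpa using (ENat.LEInfty.out : (2 : WithTop ℕ∞) ≤ ∞))).eq a b) fun a => ?_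
    have h5 := ehes_lo hT (fun a => h3 y a hy1) a
    have h6 := h4 (I • a)
    rw [norm_smul, norm_I, one_mul] at h6
    unfold levi at h5
    exact abs_le.2 ⟨by linarith, h4 a⟩
  intro y hy y' hy'
  exact (convex_ball (0 : E n) 1).norm_image_sub_le_of_norm_fderiv_le
    (fun z _ => (twd_of_smooth hv.contDiffAt).2) hD hy' hy

end Vale.Agent.P272
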