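import Vale.Agent.P272.F.E.Defs

/-! P272 F/E/KC (task, block E of helper1). Helper names start with `ekc_`.
Plan. `IsCompact.continuous_sSup`, `IsCompact.continuous_sInf`, `le_csSup` with `IsCompact.bddAbove_image`, `csSup_le`, `IsCompact.exists_sInf_image_eq`. In `le_kS` write `h = exp s • (exp (-s) • h)`. `kS_small`: uniform continuity of `w` on `closedBall 0 4`. `kF_cmp`: take the optimal `s` for `w'` (`kF_eq`); if `a ≤ s - l` use `kF_le` at `s - l`, otherwise `kF_le` at `a` and `le_kS` with `h = 0` for `w'`. `exists_ext`: Tietze (`ContinuousMap.exists_restrict_eq`), or compose with the retraction `y ↦ (4 / max 4 ‖y‖) • y`. -/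

open Metric Set Filter Topology Complex
open scoped ContDiff

noncomputable section

namespace Vale.Agent.P272

variable {n : ℕ}

theorem kS_cont {w : E n → ℝ} (hw : Continuous w) (σ : ℝ) :
    Continuous fun p : E n × ℝ => kS w σ p.1 p.2 := by
  unfold kS
  refine (isCompact_closedBall (0 : E n) 1).continuous_sSup
    (f := fun (p : E n × ℝ) (h : E n) => sy w σ p.1 (Real.exp p.2 • h)) ?_
  unfold sy Function.HasUncurry.uncurry
  change Continuous fun q : (E n × ℝ) × E n =>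
    (w (q.1.1 + Real.exp q.1.2 • q.2) + w (q.1.1 + σ • Real.exp q.1.2 • q.2)) / 2
  fun_prop

theorem le_kS {w : E n → ℝ} (hw : Continuous w) (σ : ℝ) (y : E n) {s : ℝ} {h : E n}
    (hh : ‖h‖ ≤ Real.exp s) : sy w σ y h ≤ kS w σ y s := by
  have hc : Continuous fun h : E n => sy w σ y (Real.exp s • h) := by
    unfold sy
    fun_prop
  refine le_csSup ((isCompact_closedBall (0 : E n) 1).bddAbove_image hc.continuousOn)
    ⟨(Real.exp s)⁻¹ • h, ?_, ?_⟩
  · rw [mem_closedBall_zero_iff, norm_smul, Real.norm_of_nonneg (inv_nonneg.2 (Real.exp_pos s).le),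
      inv_mul_le_iff₀ (Real.exp_pos s), mul_one]
    exact hh
  · simp only [smul_inv_smul₀ (Real.exp_pos s).ne']

theorem kS_le {w : E n → ℝ} {σ s m : ℝ} {y : E n}
    (H : ∀ h, ‖h‖ ≤ Real.exp s → sy w σ y h ≤ m) : kS w σ y s ≤ m := by
  refine csSup_le (Nonempty.image _ ⟨0, mem_closedBall_self zero_le_one⟩) ?_
  rintro _ ⟨h, hh, rfl⟩
  refine H _ ?_
  rw [norm_smul, Real.norm_of_nonneg (Real.exp_pos s).le]
  exact mul_le_of_le_one_right (Real.exp_pos s).le (mem_closedBall_zero_iff.1 hh)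

theorem kF_cont {w : E n → ℝ} (hw : Continuous w) (σ c a b : ℝ) : Continuous (kF w σ c a b) := by
  unfold kF
  refine (isCompact_Icc (a := a) (b := b)).continuous_sInf
    (f := fun (y : E n) (s : ℝ) => kS w σ y s + c * (b - s)) ?_
  change Continuous fun q : E n × ℝ => kS w σ q.1 q.2 + c * (b - q.2)
  exact (kS_cont hw σ).add (by fun_prop)

theorem ekc_cont {w : E n → ℝ} (hw : Continuous w) (σ c : ℝ) (y : E n) (b : ℝ) :
    Continuous fun s : ℝ => kS w σ y s + c * (b - s) :=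
  ((kS_cont hw σ).comp (Continuous.prodMk_right y)).add (by fun_prop)

theorem kF_le {w : E n → ℝ} (hw : Continuous w) (σ c : ℝ) (y : E n) {a b s : ℝ}
    (hs : s ∈ Icc a b) : kF w σ c a b y ≤ kS w σ y s + c * (b - s) := by
  exact csInf_le (isCompact_Icc.bddBelow_image (ekc_cont hw σ c y b).continuousOn) ⟨s, hs, rfl⟩

theorem kF_eq {w : E n → ℝ} (hw : Continuous w) (σ c : ℝ) (y : E n) {a b : ℝ} (hab : a ≤ b) :
    ∃ s ∈ Icc a b, kF w σ c a b y = kS w σ y s + c * (b - s) := by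
  exact isCompact_Icc.exists_sInf_image_eq (nonempty_Icc.2 hab) (ekc_cont hw σ c y b).continuousOn

theorem kS_small {w : E n → ℝ} (hw : Continuous w) {σ c : ℝ} (hσ : |σ| ≤ 1) (hc : 0 < c) :
    ∀ᶠ a in atBot, ∀ y, ‖y‖ ≤ 3 → kS w σ y a ≤ w y + c := by
  obtain ⟨δ, hδ, H⟩ := Metric.uniformContinuousOn_iff.1
    ((isCompact_closedBall (0 : E n) 4).uniformContinuousOn_of_continuous hw.continuousOn) c hc
  have h1 : ∀ᶠ a in atBot, Real.exp a < min δ 1 :=
    Real.tendsto_exp_atBot.eventually (gt_mem_nhds (lt_min hδ one_pos))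
  filter_upwards [h1] with a ha y hy
  have h2 : ∀ k : E n, ‖k‖ ≤ Real.exp a → w (y + k) ≤ w y + c := by
    intro k hk
    have k1 : ‖k‖ < δ := hk.trans_lt (ha.trans_le (min_le_left _ _))
    have k2 : ‖k‖ < 1 := hk.trans_lt (ha.trans_le (min_le_right _ _))
    have k3 := norm_add_le y k
    have k4 := H (y + k) (mem_closedBall_zero_iff.2 (by linarith)) y
      (mem_closedBall_zero_iff.2 (by linarith)) (by rwa [dist_eq_norm, add_sub_cancel_left])
    rw [Real.dist_eq] at k4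
    linarith [(abs_lt.1 k4).2]
  refine kS_le fun h hh => ?_
  have h3 : ‖σ • h‖ ≤ Real.exp a := by
    rw [norm_smul, Real.norm_eq_abs]
    exact (mul_le_of_le_one_left (norm_nonneg _) hσ).trans hh
  have h4 := h2 h hh
  have h5 := h2 _ h3
  unfold sy
  linarith

theorem kF_cmp {w w' : E n → ℝ} (hw : Continuous w) (hw' : Continuous w') {σ c a b l t : ℝ}
    {y y' : E n} (hc : 0 ≤ c) (hl : 0 ≤ l) (hab : a ≤ b)
    (h1 : ∀ s, s ≤ b → kS w σ y (s - l) ≤ kS w' σ y' s + t) (h2 : kS w σ y a ≤ w' y' + t) :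
    kF w σ c a b y ≤ kF w' σ c a b y' + t + c * l := by
  obtain ⟨s, hs, e⟩ := kF_eq hw' σ c y' hab
  rw [e]
  by_cases h : a ≤ s - l
  · have h3 := kF_le hw σ c y (a := a) (b := b) (s := s - l) ⟨h, by linarith [hs.2]⟩
    have h4 := h1 s hs.2
    linarith
  · have h3 := kF_le hw σ c y (left_mem_Icc.2 hab)
    have h4 := le_kS hw' σ y' (s := s) (h := 0) (by rw [norm_zero]; exact (Real.exp_pos s).le)
    have h5 : sy w' σ y' 0 = w' y' := by simp [sy]
    have h6 : c * (b - a) ≤ c * (b - s + l) :=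
      mul_le_mul_of_nonneg_left (by linarith [not_le.1 h]) hc
    linarith

theorem exists_ext {w : E n → ℝ} (hw : ContinuousOn w (closedBall 0 4)) :
    ∃ w', Continuous w' ∧ ∀ y, ‖y‖ ≤ 4 → w' y = w y := by
  obtain ⟨g, hg⟩ := ContinuousMap.exists_restrict_eq (Y := ℝ)
    (isClosed_closedBall (x := (0 : E n)) (ε := 4)) ⟨_, hw.domRestrict⟩
  exact ⟨g, g.continuous, fun y hy =>
    DFunLike.congr_fun hg ⟨y, mem_closedBall_zero_iff.2 hy⟩⟩

end Vale.Agent.P272
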