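import Vale.Agent.P272.F.E.Defs

/-! P272 F/E/Lim (task, block E of helper1). Helper names start with `elim_`.
Plan. Choose `v k` with error `1 / (k + 1)`. Taylor: for `y, y + h` in the ball `|v (y + h) - v y - Dv y h| ≤ C ‖h‖^2` (`Convex.norm_image_sub_le_of_norm_fderiv_le` for `z ↦ v z - Dv y z` on `ball 0 1 ∩ closedBall y ‖h‖`). For `‖h‖ = η` small: `|(Dv_k y - Dv_l y) h| ≤ 2 C η^2 + 2 (ε_k + ε_l)`, so `Dv_k y` is Cauchy; its limit `p y` satisfies `|w (y + h) - w y - p y h| ≤ C ‖h‖^2`, hence `HasFDerivAt w (p y) y` (`hasFDerivAt_iff_isLittleO_nhds_zero`); the Lipschitz bound passes to the limit (`le_of_tendsto`). -/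

open Metric Set Filter Topology Complex
open scoped ContDiff

noncomputable section

namespace Vale.Agent.P272

variable {n : ℕ}

theorem elim_tay {v : E n → ℝ} {C : ℝ} (hC : 0 ≤ C) (hv : Differentiable ℝ v)
    (hL : ∀ y ∈ ball (0 : E n) 1, ∀ y' ∈ ball (0 : E n) 1,
      ‖fderiv ℝ v y - fderiv ℝ v y'‖ ≤ C * ‖y - y'‖) {y z : E n} (hy : y ∈ ball (0 : E n) 1)
    (hz : y + z ∈ ball (0 : E n) 1) : |v (y + z) - v y - fderiv ℝ v y z| ≤ C * ‖z‖ ^ 2 := by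
  have h := ((convex_ball (0 : E n) 1).inter
    (convex_closedBall y ‖z‖)).norm_image_sub_le_of_norm_fderiv_le' (𝕜 := ℝ) (f := v)
    (φ := fderiv ℝ v y) (C := C * ‖z‖) (x := y) (y := y + z) (fun x _ => hv x)
    (fun x hx => (hL x hx.1 y hy).trans
      (mul_le_mul_of_nonneg_left (mem_closedBall_iff_norm.1 hx.2) hC))
    ⟨hy, mem_closedBall_self (norm_nonneg z)⟩
    ⟨hz, mem_closedBall_iff_norm.2 (by rw [add_sub_cancel_left])⟩
  rwa [add_sub_cancel_left, mul_assoc, ← sq] at h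

theorem elim_cau {w : E n → ℝ} {C : ℝ} (hC : 0 ≤ C) {D : ℕ → E n →L[ℝ] ℝ} {y : E n}
    (hy : y ∈ ball (0 : E n) 1) (h : ∀ (k : ℕ) z, y + z ∈ ball (0 : E n) 1 →
      |w (y + z) - w y - D k z| ≤ C * ‖z‖ ^ 2 + 2 * (1 / ((k : ℝ) + 1))) : CauchySeq D := by
  refine Metric.cauchySeq_iff.2 fun δ hδ => ?_
  have hy' := mem_ball_zero_iff.1 hy
  obtain ⟨η, h0, h1, h2⟩ : ∃ η : ℝ, 0 < η ∧ η < 1 - ‖y‖ ∧ (C + 1) * η ≤ δ / 8 := by
    refine ⟨min ((1 - ‖y‖) / 2) (δ / 8 / (C + 1)), lt_min (by linarith) (by positivity),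
      (min_le_left _ _).trans_lt (by linarith), ?_⟩
    rw [← le_div_iff₀' (by positivity)]
    exact min_le_right _ _
  obtain ⟨N, hN⟩ := exists_nat_one_div_lt (show 0 < η * δ / 8 by positivity)
  refine ⟨N, fun k hk l hl => ?_⟩
  rw [dist_eq_norm]
  refine (ContinuousLinearMap.opNorm_le_of_unit_norm (C := 3 * δ / 4) (by positivity)
    fun x hx => ?_).trans_lt (by linarith)
  have e : ‖η • x‖ = η := by rw [norm_smul, hx, mul_one, Real.norm_of_nonneg h0.le]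
  have hz : y + η • x ∈ ball (0 : E n) 1 :=
    mem_ball_zero_iff.2 ((norm_add_le _ _).trans_lt (by linarith))
  have a1 := abs_le.1 (h k _ hz)
  have a2 := abs_le.1 (h l _ hz)
  rw [e, map_smul, smul_eq_mul] at a1 a2
  have b1 := (Nat.one_div_le_one_div (α := ℝ) hk).trans hN.le
  have b2 := (Nat.one_div_le_one_div (α := ℝ) hl).trans hN.le
  have b3 := mul_le_mul_of_nonneg_left h2 h0.le
  rw [sub_apply, Real.norm_eq_abs, abs_le]
  constructor
  · refine le_of_mul_le_mul_left ?_ h0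
    nlinarith [sq_nonneg η]
  · refine le_of_mul_le_mul_left ?_ h0
    nlinarith [sq_nonneg η]

theorem c11_lim {w : E n → ℝ} {C : ℝ} (hC : 0 ≤ C) (h : ∀ ε : ℝ, 0 < ε → ∃ v : E n → ℝ,
    Differentiable ℝ v ∧ (∀ y, ‖y‖ ≤ 1 → |v y - w y| ≤ ε) ∧ ∀ y ∈ ball (0 : E n) 1,
      ∀ y' ∈ ball (0 : E n) 1, ‖fderiv ℝ v y - fderiv ℝ v y'‖ ≤ C * ‖y - y'‖) :
    DifferentiableOn ℝ w (ball 0 1) ∧ ∀ y ∈ ball (0 : E n) 1, ∀ y' ∈ ball (0 : E n) 1,
      ‖fderiv ℝ w y - fderiv ℝ w y'‖ ≤ C * ‖y - y'‖ := by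
  choose v hv hw hL using fun k : ℕ => h (1 / ((k : ℝ) + 1)) Nat.one_div_pos_of_nat
  have hT : ∀ y ∈ ball (0 : E n) 1, ∀ (k : ℕ) z, y + z ∈ ball (0 : E n) 1 →
      |w (y + z) - w y - fderiv ℝ (v k) y z| ≤ C * ‖z‖ ^ 2 + 2 * (1 / ((k : ℝ) + 1)) := by
    intro y hy k z hz
    have a1 := abs_le.1 (elim_tay hC (hv k) (hL k) hy hz)
    have a2 := abs_le.1 (hw k y (mem_ball_zero_iff.1 hy).le)
    have a3 := abs_le.1 (hw k _ (mem_ball_zero_iff.1 hz).le)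
    exact abs_le.2 ⟨by linarith, by linarith⟩
  have key : ∀ y ∈ ball (0 : E n) 1, ∃ p, Tendsto (fun k => fderiv ℝ (v k) y) atTop (𝓝 p) ∧
      HasFDerivAt w p y := by
    intro y hy
    obtain ⟨p, hp⟩ := cauchySeq_tendsto_of_complete (elim_cau hC hy (hT y hy))
    refine ⟨p, hp, hasFDerivAt_iff_isLittleO_nhds_zero.2 ((Asymptotics.IsBigO.of_bound C ?_).trans_isLittleO
      (Asymptotics.isLittleO_norm_pow_id one_lt_two))⟩
    have hc : ContinuousAt (fun z : E n => y + z) 0 := (continuous_const_add y).continuousAt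
    filter_upwards [hc.eventually_mem (isOpen_ball.mem_nhds (by rwa [add_zero]))] with z hz
    rw [norm_pow, norm_norm, Real.norm_eq_abs]
    have t1 : Tendsto (fun k => |w (y + z) - w y - fderiv ℝ (v k) y z|) atTop
        (𝓝 |w (y + z) - w y - p z|) :=
      (tendsto_const_nhds.sub (((ContinuousLinearMap.apply ℝ ℝ z).continuous.tendsto p).comp hp)).abs
    have t2 : Tendsto (fun k : ℕ => C * ‖z‖ ^ 2 + 2 * (1 / ((k : ℝ) + 1))) atTop
        (𝓝 (C * ‖z‖ ^ 2 + 2 * 0)) :=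
      tendsto_const_nhds.add (tendsto_one_div_add_atTop_nhds_zero_nat.const_mul 2)
    rw [mul_zero, add_zero] at t2
    exact le_of_tendsto_of_tendsto' t1 t2 fun k => hT y hy k z hz
  refine ⟨fun y hy => ?_, fun y hy y' hy' => ?_⟩
  · obtain ⟨p, -, hp⟩ := key y hy
    exact hp.differentiableAt.differentiableWithinAt
  · obtain ⟨p, h1, h2⟩ := key y hy
    obtain ⟨p', h1', h2'⟩ := key y' hy'
    rw [h2.fderiv, h2'.fderiv]
    exact le_of_tendsto' (h1.sub h1').norm fun k => hL k y hy y' hy'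

end Vale.Agent.P272
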