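import Vale.Agent.P272.F.E.Defs

/-! P272 F/E/Mol (task, block E of helper1). Helper names start with `emol_`.
Plan. `φ : ContDiffBump (0 : E n)` with `rOut ≤ 1 / 2` small, `v = φ.normed volume ⋆[lsmul ℝ ℝ, volume] w`, `v y = ∫ t, φ.normed volume t • w (y - t)`; smooth by `HasCompactSupport.contDiff_convolution_left`, close to `w` by `ContDiffBump.dist_normed_convolution_le` and uniform continuity on `closedBall 0 2`. Second differences: `integral_mono`, `ContDiffBump.integral_normed`. Submean: for `‖t‖ ≤ 1 / 2` use `SubM` on the disc `z ↦ y - t + z • a`, then swap the integrals (`MeasureTheory.integral_integral_swap` or `intervalIntegral_integral_swap`; the integrand is continuous with compact support in `t`). -/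

open Metric Set Filter Topology Complex
open scoped ContDiff

noncomputable section

namespace Vale.Agent.P272

variable {n : ℕ}

open MeasureTheory in
theorem emol_int (φ : ContDiffBump (0 : E n)) {g : E n → ℝ} (hg : Continuous g) :
    Integrable (fun t => φ.normed Measure.addHaar t • g t) Measure.addHaar :=
  (φ.continuous_normed.smul hg).integrable_of_hasCompactSupport
    φ.hasCompactSupport_normed.smul_right

open MeasureTheory in
theorem emol_mono (φ : ContDiffBump (0 : E n)) {g g' : E n → ℝ} (hg : Continuous g)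
    (hg' : Continuous g') (h : ∀ t, ‖t‖ < φ.rOut → g t ≤ g' t) :
    ∫ t, φ.normed Measure.addHaar t • g t ∂Measure.addHaar ≤
      ∫ t, φ.normed Measure.addHaar t • g' t ∂Measure.addHaar := by
  refine integral_mono (emol_int φ hg) (emol_int φ hg') fun t => ?_
  by_cases ht : t ∈ Function.support (φ.normed Measure.addHaar)
  · rw [φ.support_normed_eq, mem_ball_zero_iff] at ht
    exact smul_le_smul_of_nonneg_left (h t ht) (φ.nonneg_normed t)
  · rw [Function.notMem_support] at ht
    simp only [ht, zero_smul, le_refl]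

open MeasureTheory in
theorem emol_swap (φ : ContDiffBump (0 : E n)) {f : ℝ → E n → ℝ} (hf : Continuous f.uncurry)
    (a b : ℝ) :
    ∫ θ in a..b, ∫ t, φ.normed Measure.addHaar t • f θ t ∂Measure.addHaar =
      ∫ t, φ.normed Measure.addHaar t • (∫ θ in a..b, f θ t) ∂Measure.addHaar := by
  obtain ⟨M, hM⟩ := ((isCompact_uIcc (a := a) (b := b)).prod
    (isCompact_closedBall (0 : E n) φ.rOut)).exists_bound_of_continuousOn hf.continuousOn
  have h1 : Integrable (fun p : ℝ × E n => M * φ.normed Measure.addHaar p.2)
      ((volume.restrict (uIoc a b)).prod Measure.addHaar) := by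
    have : IsFiniteMeasure (volume.restrict (uIoc a b)) :=
      ⟨by rw [Measure.restrict_apply_univ, Real.volume_uIoc]; exact ENNReal.ofReal_lt_top⟩
    exact Integrable.mul_prod (f := fun _ : ℝ => M) (integrable_const M) φ.integrable_normed
  rw [intervalIntegral_integral_swap]
  · simp only [intervalIntegral.integral_smul]
  · refine h1.mono' ((φ.continuous_normed.comp continuous_snd).smul hf).aestronglyMeasurable ?_
    have h2 : ∀ᵐ p : ℝ × E n ∂((volume.restrict (uIoc a b)).prod Measure.addHaar),
        p.1 ∈ uIoc a b :=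
      Measure.quasiMeasurePreserving_fst.ae (ae_restrict_mem measurableSet_uIoc)
    filter_upwards [h2] with p hp
    by_cases ht : p.2 ∈ Function.support (φ.normed Measure.addHaar)
    · rw [φ.support_normed_eq] at ht
      have h3 := hM p ⟨uIoc_subset_uIcc hp, ball_subset_closedBall ht⟩
      show ‖φ.normed Measure.addHaar p.2 • f p.1 p.2‖ ≤ _
      rw [norm_smul, Real.norm_of_nonneg (φ.nonneg_normed _), mul_comm]
      exact mul_le_mul_of_nonneg_right h3 (φ.nonneg_normed _)
    · rw [Function.notMem_support] at ht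
      show ‖φ.normed Measure.addHaar p.2 • f p.1 p.2‖ ≤ _
      simp only [ht, zero_smul, norm_zero, mul_zero, le_refl]

open MeasureTheory in
theorem exists_mol {w : E n → ℝ} (hw : Continuous w) (hs : SubM w (ball 0 3)) {K d : ℝ}
    (h2 : ∀ y h, ‖y‖ ≤ 2 → ‖h‖ ≤ d → sy w (-1) y h ≤ w y + K * ‖h‖ ^ 2) {ε : ℝ} (hε : 0 < ε) :
    ∃ v : E n → ℝ, ContDiff ℝ ∞ v ∧ (∀ y, ‖y‖ ≤ 1 → |v y - w y| ≤ ε) ∧
      (∀ y h, ‖y‖ ≤ 1 → ‖h‖ ≤ d → sy v (-1) y h ≤ v y + K * ‖h‖ ^ 2) ∧
      ∀ y a, ‖y‖ ≤ 1 → ‖a‖ ≤ 1 → v y ≤ Real.circleAverage (fun z : ℂ => v (y + z • a)) 0 1 := by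
  obtain ⟨δ, hδ, hu⟩ := Metric.uniformContinuousOn_iff.1
    ((isCompact_closedBall (0 : E n) 2).uniformContinuousOn_of_continuous hw.continuousOn) ε hε
  have hr : 0 < min δ (1 / 2) := lt_min hδ (by norm_num)
  obtain ⟨φ, φ1, φ2⟩ : ∃ φ : ContDiffBump (0 : E n), φ.rOut ≤ δ ∧ φ.rOut ≤ 1 / 2 :=
    ⟨⟨min δ (1 / 2) / 2, min δ (1 / 2), half_pos hr, half_lt_self hr⟩, min_le_left _ _,
      min_le_right _ _⟩
  have hv : ∀ y, convolution (φ.normed Measure.addHaar) w (ContinuousLinearMap.lsmul ℝ ℝ)
      Measure.addHaar y = ∫ t, φ.normed Measure.addHaar t • w (y - t) ∂Measure.addHaar :=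
    fun y => rfl
  have hc : ∀ y : E n, Continuous fun t => w (y - t) := fun y => by fun_prop
  refine ⟨convolution (φ.normed Measure.addHaar) w (ContinuousLinearMap.lsmul ℝ ℝ) Measure.addHaar,
    φ.hasCompactSupport_normed.contDiff_convolution_left _ φ.contDiff_normed hw.locallyIntegrable,
    fun y hy => ?_, fun y h hy hh => ?_, fun y a hy ha => ?_⟩
  · rw [← Real.dist_eq]
    refine φ.dist_normed_convolution_le hw.aestronglyMeasurable fun x hx => ?_
    have h1 : dist x y < φ.rOut := hx
    have h3 : ‖x‖ ≤ dist x y + ‖y‖ := by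
      rw [dist_eq_norm]
      exact norm_le_norm_sub_add x y
    exact (hu x (mem_closedBall_zero_iff.2 (by linarith)) y (mem_closedBall_zero_iff.2 (by linarith))
      (h1.trans_le φ1)).le
  · have h1 := emol_mono φ (g := fun t => w (y + h - t) + w (y + (-1 : ℝ) • h - t))
      (g' := fun t => 2 * w (y - t) + 2 * (K * ‖h‖ ^ 2)) (by fun_prop) (by fun_prop) fun t ht => by
        have e1 := h2 (y - t) h ((norm_sub_le y t).trans (by linarith)) hh
        rw [sy, sub_add_eq_add_sub, sub_add_eq_add_sub] at e1
        linarith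
    simp only [smul_add] at h1
    rw [integral_add (emol_int φ (hc _)) (emol_int φ (hc _)),
      integral_add (emol_int φ (by fun_prop)) (emol_int φ continuous_const),
      integral_smul_const, φ.integral_normed, one_smul] at h1
    have e2 : ∫ t, φ.normed Measure.addHaar t • (2 * w (y - t)) ∂Measure.addHaar =
        2 * ∫ t, φ.normed Measure.addHaar t • w (y - t) ∂Measure.addHaar := by
      rw [← integral_const_mul]
      simp only [smul_eq_mul, mul_left_comm]
    rw [sy, hv, hv, hv]
    linarith
  · have hf : Continuous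
        (fun (θ : ℝ) (t : E n) => w (y + circleMap 0 1 θ • a - t)).uncurry := by
      have := continuous_circleMap 0 1
      exact hw.comp (by fun_prop)
    have hf' : Continuous
        (fun (t : E n) (θ : ℝ) => w (y + circleMap 0 1 θ • a - t)).uncurry := by
      have := continuous_circleMap 0 1
      exact hw.comp (by fun_prop)
    have h1 := emol_mono φ (hc y)
      (g' := fun t => (2 * Real.pi)⁻¹ * ∫ θ in (0 : ℝ)..2 * Real.pi, w (y + circleMap 0 1 θ • a - t))
      (continuous_const.mul
        (intervalIntegral.continuous_parametric_intervalIntegral_of_continuous' hf' _ _))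
      fun t ht => by
        have e1 := hs (fun z => y + z • a - t) fun z hz => ⟨by fun_prop, by
          have e2 : ‖z • a‖ ≤ 1 := by
            rw [norm_smul]
            exact mul_le_one₀ hz (norm_nonneg _) ha
          have e3 := norm_add_le y (z • a)
          have e4 := norm_sub_le (y + z • a) t
          exact mem_ball_zero_iff.2 (by linarith)⟩
        simpa only [zero_smul, add_zero, Real.circleAverage, smul_eq_mul] using e1
    rw [hv, Real.circleAverage]
    simp only [hv]
    rw [emol_swap φ hf, ← integral_smul]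
    simpa only [smul_eq_mul, mul_left_comm] using h1

end Vale.Agent.P272
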