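import Vale.Agent.P272.F.E.Semi
import Vale.Agent.P272.F.E.Mol
import Vale.Agent.P272.F.E.Hes
import Vale.Agent.P272.F.E.Lim
import Vale.Agent.P272.F.E.Bump
import Vale.Agent.P272.F.E.KC

/-! P272 F/E/Main (block E, helper1): the envelope is `C^{1,1}` and satisfies the contact
alternative. -/

open Metric Set Filter Topology Complex
open scoped ContDiff

noncomputable section

namespace Vale.Agent.P272

variable {n : ℕ} {X : Type} [TopologicalSpace X] [T2Space X] [CompactSpace X] {A : Atl n X}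

theorem emain_c11 {w : E n → ℝ} (hw : Continuous w) (hs : SubM w (ball 0 3)) {K d : ℝ}
    (hK : 0 ≤ K) (hd : 0 < d)
    (h2 : ∀ y h, ‖y‖ ≤ 2 → ‖h‖ ≤ d → sy w (-1) y h ≤ w y + K * ‖h‖ ^ 2) :
    DifferentiableOn ℝ w (ball 0 1) ∧ ∀ y ∈ ball (0 : E n) 1, ∀ y' ∈ ball (0 : E n) 1,
      ‖fderiv ℝ w y - fderiv ℝ w y'‖ ≤ 2 * K * ‖y - y'‖ := by
  refine c11_lim (by positivity) fun ε hε => ?_
  obtain ⟨v, hv, h1, h3, h4⟩ := exists_mol hw hs h2 hε
  exact ⟨v, hv.differentiable (by simp), h1, hes_bound hv hK hd h3 h4⟩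

theorem emain_subm {f g : E n → ℝ} {U V : Set (E n)} (h : SubM f U) (hV : V ⊆ U)
    (e : ∀ y ∈ V, g y = f y) : SubM g V := by
  intro φ hφ
  have h1 := h φ fun z hz => ⟨(hφ z hz).1, hV (hφ z hz).2⟩
  rw [e _ (hφ 0 (by simp)).2]
  refine h1.trans (le_of_eq ?_)
  refine Real.circleAverage_congr_sphere fun z hz => ?_
  have hz' : ‖z‖ ≤ 1 := by simpa using (mem_sphere_iff_norm.1 hz).le
  exact (e _ (hφ z hz').2).symm

theorem emain_contact {p u : E n → ℝ} {y : E n} (hp : TwD p y) (hu : TwD u y) (e : p y = u y)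
    (le : ∀ᶠ z in 𝓝 y, p z ≤ u z) (a : E n) : levi p y a ≤ levi u y a := by
  have key : ∀ b : E n, fderiv ℝ (fderiv ℝ p) y b b ≤ fderiv ℝ (fderiv ℝ u) y b b := by
    intro b
    refine le_of_tendsto_of_tendsto (hp.sec b) (hu.sec b) ?_
    have t1 : Tendsto (fun t : ℝ => y + t • b) (𝓝[>] 0) (𝓝 y) := by
      have : Continuous fun t : ℝ => y + t • b := by fun_prop
      simpa using (this.tendsto 0).mono_left nhdsWithin_le_nhds
    have t2 : Tendsto (fun t : ℝ => y + (-1 : ℝ) • t • b) (𝓝[>] 0) (𝓝 y) := by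
      have : Continuous fun t : ℝ => y + (-1 : ℝ) • t • b := by fun_prop
      simpa using (this.tendsto 0).mono_left nhdsWithin_le_nhds
    filter_upwards [t1.eventually le, t2.eventually le] with t h1 h2
    refine div_le_div_of_nonneg_right ?_ (sq_nonneg t)
    linarith
  unfold levi
  linarith [key a, key (I • a)]

omit [CompactSpace X] in
theorem emain_chart (τ : A.Pot) (hτ : τ.Pos) {u : X → ℝ} (hu : A.Sm u) (j : Fin A.N) :
    ∃ C : ℝ, 0 ≤ C ∧ DifferentiableOn ℝ (A.loc (Atl.envF τ u) j) (ball 0 1) ∧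
      ∀ y ∈ ball (0 : E n) 1, ∀ y' ∈ ball (0 : E n) 1, ‖fderiv ℝ (A.loc (Atl.envF τ u) j) y -
        fderiv ℝ (A.loc (Atl.envF τ u) j) y'‖ ≤ C * ‖y - y'‖ := by
  have hφ := Atl.env_fam τ hτ hu
  obtain ⟨K, d, hK, hd, hd1, hs⟩ := Atl.env_semi τ hτ hu
  obtain ⟨C, m, hC, -, -, -, hb⟩ := Atl.smb τ hτ hu
  have hc : ContinuousOn (fun y => τ.u j y + A.loc (Atl.envF τ u) j y) (closedBall 0 4) :=
    ((τ.sm j).continuousOn.add (Atl.loc_cont hφ.1 j)).mono (A.tgt j)
  obtain ⟨w, hw, ew⟩ := exists_ext hc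
  have b3 : ball (0 : E n) 3 ⊆ closedBall 0 4 :=
    ball_subset_closedBall.trans (closedBall_subset_closedBall (by norm_num))
  have sw : SubM w (ball 0 3) := emain_subm (hφ.subm j) (b3.trans (A.tgt j)) fun y hy =>
    ew y (by simpa using b3 hy)
  have h2 : ∀ y h, ‖y‖ ≤ 2 → ‖h‖ ≤ d → sy w (-1) y h ≤ w y + (K + C) * ‖h‖ ^ 2 := by
    intro y h hy hh
    have n1 : ‖y + h‖ ≤ 4 := (norm_add_le _ _).trans (by linarith)
    have n2 : ‖y + (-1 : ℝ) • h‖ ≤ 4 := by
      refine (norm_add_le _ _).trans ?_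
      rw [norm_smul, norm_neg, norm_one]
      linarith
    have a1 := hs j y h hy hh
    have a2 := (abs_le.1 (hb j y h (by linarith) (by linarith)).2.1).2
    rw [ew y (by linarith)]
    unfold sy at a1 a2 ⊢
    rw [ew _ n1, ew _ n2]
    linarith
  obtain ⟨dw, lw⟩ := emain_c11 hw sw (by linarith) hd h2
  obtain ⟨G, hG, lG⟩ := grad_lip (A.e j).open_target (A.tgt j) (τ.sm j)
  have b1 : ball (0 : E n) 1 ⊆ closedBall 0 4 :=
    ball_subset_closedBall.trans (closedBall_subset_closedBall (by norm_num))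
  have dt : DifferentiableOn ℝ (τ.u j) (ball 0 1) :=
    ((τ.sm j).differentiableOn (by simp)).mono (b1.trans (A.tgt j))
  have e1 : ∀ y ∈ ball (0 : E n) 1, A.loc (Atl.envF τ u) j y = w y - τ.u j y := by
    intro y hy
    rw [ew y (by simpa using b1 hy)]
    ring
  have e2 : ∀ y ∈ ball (0 : E n) 1, fderiv ℝ (A.loc (Atl.envF τ u) j) y =
      fderiv ℝ w y - fderiv ℝ (τ.u j) y := by
    intro y hy
    have hn := isOpen_ball.mem_nhds hy
    have ev : A.loc (Atl.envF τ u) j =ᶠ[𝓝 y] fun z => w z - τ.u j z :=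
      eventually_of_mem hn e1
    rw [ev.fderiv_eq]
    exact fderiv_fun_sub (dw.differentiableAt hn) (dt.differentiableAt hn)
  refine ⟨2 * (K + C) + G, by positivity, (dw.sub dt).congr e1, fun y hy y' hy' => ?_⟩
  rw [e2 y hy, e2 y' hy', sub_sub_sub_comm]
  refine (norm_sub_le _ _).trans ?_
  linarith [lw y hy y' hy', lG y hy y' hy']

theorem env (hn : 1 ≤ n) (τ : A.Pot) (hτ : τ.Pos) {u : X → ℝ} (hu : A.Sm u) :
    ∃ (φ : X → ℝ) (C : NNReal), ∀ j, DifferentiableOn ℝ (A.loc φ j) (ball 0 1) ∧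
      LipschitzOnWith C (fderiv ℝ (A.loc φ j)) (ball 0 1) ∧
      ∀ y ∈ ball (0 : E n) 1, DifferentiableAt ℝ (fderiv ℝ (A.loc φ j)) y →
        (∀ a, 0 ≤ levi (τ.u j) y a + levi (A.loc φ j) y a) ∧
        ((∃ a, a ≠ 0 ∧ levi (τ.u j) y a + levi (A.loc φ j) y a = 0) ∨
          ∀ a, levi (A.loc φ j) y a ≤ levi (A.loc u j) y a) := by
  have _h := hn
  have hφ := Atl.env_fam τ hτ hu
  choose C hC hd hl using emain_chart τ hτ hu
  have b1 : ∀ j, ball (0 : E n) 1 ⊆ (A.e j).target := fun j =>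
    (ball_subset_closedBall.trans (closedBall_subset_closedBall (by norm_num))).trans (A.tgt j)
  refine ⟨Atl.envF τ u, ⟨∑ j, C j, Finset.sum_nonneg fun j _ => hC j⟩, fun j => ⟨hd j, ?_, ?_⟩⟩
  · refine LipschitzOnWith.of_dist_le_mul fun y hy y' hy' => ?_
    rw [dist_eq_norm, dist_eq_norm]
    refine (hl j y hy y' hy').trans (mul_le_mul_of_nonneg_right ?_ (norm_nonneg _))
    exact Finset.single_le_sum (fun i _ => hC i) (Finset.mem_univ j)
  intro y hy h2
  have hn1 := isOpen_ball.mem_nhds hy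
  have ht := (A.e j).open_target.mem_nhds (b1 j hy)
  have T : TwD (A.loc (Atl.envF τ u) j) y :=
    ⟨eventually_of_mem hn1 fun z hz => (hd j).differentiableAt (isOpen_ball.mem_nhds hz), h2⟩
  have Tt : TwD (τ.u j) y := twd_of_smooth ((τ.sm j).contDiffAt ht)
  have Tu : TwD (A.loc u j) y := twd_of_smooth ((hu j).contDiffAt ht)
  have nn : ∀ a, 0 ≤ levi (τ.u j) y a + levi (A.loc (Atl.envF τ u) j) y a := by
    intro a
    have W := hφ.2.2 ((A.e j).symm y) j ((A.e j).map_target (b1 j hy))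
    rw [(A.e j).right_inv (b1 j hy)] at W
    rw [← (Tt.add T).2 a]
    exact W.levi_nonneg (Tt.add T).1 a
  refine ⟨nn, ?_⟩
  have le : ∀ z, A.loc (Atl.envF τ u) j z ≤ A.loc u j z := fun z => hφ.2.1 _
  rcases (le y).eq_or_lt with e | lt
  · exact Or.inr (emain_contact T Tu e (Eventually.of_forall le))
  · obtain ⟨a, ha, h⟩ := Atl.bump τ (Atl.sm_cont hu) hφ (by simpa using hy) T lt
    exact Or.inl ⟨a, ha, le_antisymm h (nn a)⟩

end Vale.Agent.P272
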