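import Vale.Agent.P272.F.E.Jet

/-! P272 F/E/Avg (task, block E of helper1). Helper names start with `eavg_`.
Plan. `ctn_ev`: `w ∘ f` is continuous on a small closed disc (`ContinuousOn.circleIntegrable`), and every property holding near `y` holds on small circles (`eventually_nhds_iff_ball`). `avg`: put `k = f z - y`, `a = deriv f 0`, `‖k - z a‖ ≤ η ‖z‖`, `‖k‖ ≤ (‖a‖ + 1) ‖z‖`. By `jet`, `u (f z) = u y + Du k + D²u (z a) (z a) / 2 + o(‖z‖^2)` pointwise on the circle. The average of `f z - y` is `0` (`DiffContOnCl.circleAverage`), `Du` commutes with the average (`ContinuousLinearMap.circleAverage_comp_comm`). With `A = D a a`, `B = D (I a) (I a)`, `C = D a (I a) + D (I a) a`: `D (z a) (z a) = ‖z‖^2 (A + B) / 2 + re (c z^2)`, `c = (A - B) / 2 - I C / 2`, and `re (c z^2)` has average `0`. Finish with `circleAverage_mono`. -/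

open Metric Set Filter Topology Complex
open scoped ContDiff

noncomputable section

namespace Vale.Agent.P272

variable {n : ℕ}

theorem eavg_ball {Q : ℂ → Prop} (h : ∀ᶠ z in 𝓝 (0 : ℂ), Q z) :
    ∀ᶠ r in 𝓝[>] (0 : ℝ), ∀ z ∈ closedBall (0 : ℂ) |r|, Q z := by
  obtain ⟨ε, hε, h1⟩ := Metric.eventually_nhds_iff_ball.1 h
  filter_upwards [Ioo_mem_nhdsGT hε] with r hr z hz
  exact h1 z (closedBall_subset_ball (by rw [abs_of_pos hr.1]; exact hr.2) hz)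

theorem ctn_ev {w : E n → ℝ} {y : E n} (hw : CtN w y) {f : ℂ → E n}
    (hf : ∀ᶠ z in 𝓝 (0 : ℂ), DifferentiableAt ℂ f z) (h0 : f 0 = y) {P : E n → Prop}
    (hP : ∀ᶠ z in 𝓝 y, P z) : ∀ᶠ r in 𝓝[>] (0 : ℝ),
      CircleIntegrable (fun z => w (f z)) 0 r ∧ ∀ z ∈ sphere (0 : ℂ) |r|, P (f z) := by
  have ht : Tendsto f (𝓝 0) (𝓝 y) := h0 ▸ hf.self_of_nhds.continuousAt.tendsto
  filter_upwards [eavg_ball (hf.and ((ht.eventually hw).and (ht.eventually hP)))] with r hr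
  refine ⟨ContinuousOn.circleIntegrable' fun z hz => ?_,
    fun z hz => (hr z (sphere_subset_closedBall hz)).2.2⟩
  obtain ⟨h1, h2, -⟩ := hr z (sphere_subset_closedBall hz)
  exact (h2.comp h1.continuousAt).continuousWithinAt

theorem eavg_hol {V : Type} [NormedAddCommGroup V] [NormedSpace ℂ V] [CompleteSpace V]
    (T : V →L[ℝ] ℝ) {F : ℂ → V} {r : ℝ}
    (h : ∀ z ∈ closedBall (0 : ℂ) |r|, DifferentiableAt ℂ F z) :
    CircleIntegrable (fun z => T (F z)) 0 r ∧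
      Real.circleAverage (fun z => T (F z)) 0 r = T (F 0) := by
  have h1 : DifferentiableOn ℂ F (closedBall 0 |r|) := fun z hz => (h z hz).differentiableWithinAt
  have h2 := h1.continuousOn.mono sphere_subset_closedBall
  refine ⟨(T.continuous.comp_continuousOn h2).circleIntegrable', ?_⟩
  rw [← (h1.diffContOnCl_ball Subset.rfl).circleAverage]
  exact T.circleAverage_comp_comm h2.circleIntegrable'

theorem eavg_quad (D : E n →L[ℝ] E n →L[ℝ] ℝ) (a : E n) : ∃ c : ℂ, ∀ z : ℂ,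
    D (z • a) (z • a) / 2 = ‖z‖ ^ 2 * ((D a a + D (I • a) (I • a)) / 4) + (c * z ^ 2).re := by
  refine ⟨⟨(D a a - D (I • a) (I • a)) / 4, -(D a (I • a) + D (I • a) a) / 4⟩, fun z => ?_⟩
  have e : z • a = z.re • a + z.im • I • a := by
    rw [← coe_smul, ← coe_smul, smul_smul, ← add_smul, re_add_im]
  rw [e, Complex.sq_norm, normSq_apply, sq z]
  simp only [map_add, D.map_smul, add_apply, smul_apply, ContinuousLinearMap.map_smul,
    smul_eq_mul, mul_re, mul_im]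
  ring

theorem eavg_diff (D : E n →L[ℝ] E n →L[ℝ] ℝ) {k l : E n} {s t : ℝ} (hk : ‖k‖ ≤ s) (hl : ‖l‖ ≤ s)
    (h : ‖k - l‖ ≤ t) : |D k k / 2 - D l l / 2| ≤ ‖D‖ * s * t := by
  have e : D k k / 2 - D l l / 2 = (D (k - l) k + D l (k - l)) / 2 := by
    simp only [map_sub, sub_apply]
    ring
  have h1 : |D (k - l) k| ≤ ‖D‖ * t * s := (D.le_opNorm₂ _ _).trans (by
    have := (norm_nonneg _).trans h
    gcongr)
  have h2 : |D l (k - l)| ≤ ‖D‖ * s * t := (D.le_opNorm₂ _ _).trans (by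
    have := (norm_nonneg _).trans hl
    gcongr)
  rw [e, abs_div, abs_two]
  linarith [abs_add_le (D (k - l) k) (D l (k - l))]

theorem eavg_pt {u : E n → ℝ} {y a k : E n} {c z : ℂ} {η δ : ℝ} (hη : 0 < η) (hη' : η ≤ 1)
    (hc : fderiv ℝ (fderiv ℝ u) y (z • a) (z • a) / 2 = ‖z‖ ^ 2 * levi u y a + (c * z ^ 2).re)
    (h1 : η * ((‖a‖ + 1) ^ 2 + ‖fderiv ℝ (fderiv ℝ u) y‖ * (‖a‖ + 1)) ≤ δ)
    (b1 : ‖k - z • a‖ ≤ η * ‖z‖)
    (b2 : |u (y + k) - u y - fderiv ℝ u y k - fderiv ℝ (fderiv ℝ u) y k k / 2| ≤ η * ‖k‖ ^ 2) :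
    |u (y + k) - (fderiv ℝ u y k + (c * z ^ 2).re) - (u y + ‖z‖ ^ 2 * levi u y a)| ≤
      δ * ‖z‖ ^ 2 := by
  have b3 : ‖z • a‖ ≤ ‖a‖ * ‖z‖ := by rw [norm_smul, mul_comm]
  have b4 : η * ‖z‖ ≤ 1 * ‖z‖ := mul_le_mul_of_nonneg_right hη' (norm_nonneg _)
  have b5 : ‖k‖ ≤ (‖a‖ + 1) * ‖z‖ := by
    have := norm_le_norm_add_norm_sub' k (z • a)
    linarith
  have b6 := eavg_diff (fderiv ℝ (fderiv ℝ u) y) b5 (b3.trans (by linarith [norm_nonneg z])) b1
  have b7 : η * ‖k‖ ^ 2 ≤ η * ((‖a‖ + 1) * ‖z‖) ^ 2 := by gcongr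
  have b8 := mul_le_mul_of_nonneg_right h1 (sq_nonneg ‖z‖)
  rw [hc] at b6
  have b9 := abs_le.1 b2
  have b10 := abs_le.1 b6
  rw [abs_le]
  constructor <;> linarith [b9.1, b9.2, b10.1, b10.2]

theorem eavg_abs {g : ℂ → ℝ} {r s t : ℝ} (hg : CircleIntegrable g 0 r)
    (h : ∀ z ∈ sphere (0 : ℂ) |r|, |g z - s| ≤ t) : |Real.circleAverage g 0 r - s| ≤ t := by
  have g5 := Real.circleAverage_mono_on_of_le_circle hg (a := s + t)
    fun z hz => by linarith [(abs_le.1 (h z hz)).2]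
  have g6 := Real.circleAverage_mono (circleIntegrable_const (s - t) 0 r) hg
    fun z hz => by linarith [(abs_le.1 (h z hz)).1]
  rw [Real.circleAverage_const] at g6
  exact abs_le.2 ⟨by linarith, by linarith⟩

theorem TwD.avg {u : E n → ℝ} {y : E n} (h : TwD u y) {f : ℂ → E n}
    (hf : ∀ᶠ z in 𝓝 (0 : ℂ), DifferentiableAt ℂ f z) (h0 : f 0 = y) {δ : ℝ} (hδ : 0 < δ) :
    ∀ᶠ r in 𝓝[>] (0 : ℝ), |Real.circleAverage (fun z => u (f z)) 0 r - u y -
      r ^ 2 * levi u y (deriv f 0)| ≤ δ * r ^ 2 := by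
  obtain ⟨c, hc⟩ := eavg_quad (fderiv ℝ (fderiv ℝ u) y) (deriv f 0)
  obtain ⟨η, hη0, hη1, hη2⟩ : ∃ η : ℝ, 0 < η ∧ η ≤ 1 ∧ η * ((‖deriv f 0‖ + 1) ^ 2 +
      ‖fderiv ℝ (fderiv ℝ u) y‖ * (‖deriv f 0‖ + 1)) ≤ δ := by
    have hs : 0 < (‖deriv f 0‖ + 1) ^ 2 + ‖fderiv ℝ (fderiv ℝ u) y‖ * (‖deriv f 0‖ + 1) := by
      positivity
    exact ⟨_, lt_min one_pos (div_pos hδ hs), min_le_left _ _, (le_div_iff₀ hs).1 (min_le_right _ _)⟩
  have ht : Tendsto (fun z => f z - y) (𝓝 0) (𝓝 0) := by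
    have := hf.self_of_nhds.continuousAt.tendsto.sub_const y
    rwa [h0, sub_self] at this
  have h1 := (hasDerivAt_iff_isLittleO.1 hf.self_of_nhds.hasDerivAt).def hη0
  simp only [sub_zero, h0] at h1
  filter_upwards [eavg_ball (hf.and (h1.and (ht.eventually (h.jet hη0)))),
    ctn_ev h.ctn hf h0 (Eventually.of_forall fun _ => trivial)] with r hr hi
  obtain ⟨g1, g2⟩ := eavg_hol ((fderiv ℝ u y).coprod reCLM)
    (F := fun z => (f z - y, c * z ^ 2)) (r := r) fun z hz =>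
      ((hr z hz).1.sub_const y).prodMk (by fun_prop)
  simp only [ContinuousLinearMap.coprod_apply, reCLM_apply] at g1 g2
  have g3 := Real.circleAverage_fun_sub hi.1 g1
  rw [g2, h0, sub_self, zero_pow two_ne_zero, mul_zero, map_zero, zero_re, add_zero,
    sub_zero] at g3
  rw [← g3, sub_sub]
  refine eavg_abs (hi.1.sub g1) fun z hz => ?_
  obtain ⟨-, b1, b2⟩ := hr z (sphere_subset_closedBall hz)
  have b3 := eavg_pt hη0 hη1 (hc z) hη2 b1 b2
  rwa [add_sub_cancel, mem_sphere_zero_iff_norm.1 hz, sq_abs] at b3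

end Vale.Agent.P272
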