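import Vale.Agent.P272.F.E.Defs

/-! P272 F/E/Quad (task, block E of helper1). Helper names start with `equad_`.
Plan. `HasFDerivAt` of the quadratic function at `z` is `h ↦ D₁ h + (D₂ h (z - y) + D₂ (z - y) h) / 2 - 2 s ⟪z - y, h⟫_ℝ` (`HasFDerivAt.clm_apply`, `HasFDerivAt.norm_sq`), an affine function of `z` (write it as `D₁ + B (z - y)` with `B = (D₂ + D₂.flip) / 2 - 2 s innerSL ℝ`; the real inner product space structure of `E n` is `InnerProductSpace.complexToReal` or use `‖z‖^2 = re ⟪z, z⟫_ℂ`), so the second derivative is `B`; `‖I • a‖ = ‖a‖`. -/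

open Metric Set Filter Topology Complex
open scoped ContDiff

noncomputable section

namespace Vale.Agent.P272

variable {n : ℕ}

theorem equad_G : ∃ G : E n →L[ℝ] E n →L[ℝ] ℝ, ∀ a, G a a = ‖a‖ ^ 2 :=
  ⟨(ContinuousLinearMap.compL ℝ (E n) ℂ ℝ reCLM).comp
    (isBoundedBilinearMap_inner (𝕜 := ℂ)).toContinuousLinearMap, fun a => inner_self_eq_norm_sq (𝕜 := ℂ) a⟩

theorem equad_0 (c : ℝ) (y : E n) (D₁ : E n →L[ℝ] ℝ) (D₂ : E n →L[ℝ] E n →L[ℝ] ℝ) (z a : E n) :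
    fderiv ℝ (fderiv ℝ fun z => c + D₁ (z - y) + D₂ (z - y) (z - y) / 2) z a a = D₂ a a := by
  have h1 : (fderiv ℝ fun z => c + D₁ (z - y) + D₂ (z - y) (z - y) / 2) =
      fun z => D₁ + ((2 : ℝ)⁻¹ • (D₂ + D₂.flip)) (z - y) := funext fun z => by
    have h0 := (hasFDerivAt_id (𝕜 := ℝ) z).sub_const y
    have h2 := ((D₁.hasFDerivAt.comp z h0).const_add c).fun_add
      (((D₂.hasFDerivAt.comp z h0).clm_apply h0).mul_const (2 : ℝ)⁻¹)
    refine (HasFDerivAt.fderiv h2).trans ?_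
    ext b
    simp
  have h3 := ((((2 : ℝ)⁻¹ • (D₂ + D₂.flip)).hasFDerivAt.comp z
    ((hasFDerivAt_id (𝕜 := ℝ) z).sub_const y)).const_add D₁).fderiv
  rw [h1]
  refine (congrArg (fun B : E n →L[ℝ] E n →L[ℝ] ℝ => B a a) h3).trans ?_
  simp
  ring

theorem quad_levi (c s : ℝ) (y : E n) (D₁ : E n →L[ℝ] ℝ) (D₂ : E n →L[ℝ] E n →L[ℝ] ℝ) :
    ContDiff ℝ ∞ (fun z => c + D₁ (z - y) + D₂ (z - y) (z - y) / 2 - s * ‖z - y‖ ^ 2) ∧
      ∀ z a, levi (fun z => c + D₁ (z - y) + D₂ (z - y) (z - y) / 2 - s * ‖z - y‖ ^ 2) z a =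
        (D₂ a a + D₂ (I • a) (I • a)) / 4 - s * ‖a‖ ^ 2 := by
  obtain ⟨G, hG⟩ := equad_G (n := n)
  have e : (fun z => c + D₁ (z - y) + D₂ (z - y) (z - y) / 2 - s * ‖z - y‖ ^ 2) =
      fun z => c + D₁ (z - y) + (D₂ - (2 * s) • G) (z - y) (z - y) / 2 := funext fun z => by
    simp only [sub_apply, smul_apply, smul_eq_mul, hG]
    ring
  rw [e]
  refine ⟨by fun_prop, fun z a => ?_⟩
  rw [levi, equad_0, equad_0]
  simp only [sub_apply, smul_apply, smul_eq_mul, hG, norm_smul, norm_I]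
  ring

end Vale.Agent.P272
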