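import Vale.Agent.P272.F.E.WS
import Vale.Agent.P272.F.E.Quad
import Vale.Agent.P272.F.R.Lev

/-! P272 F/E/Bump0 (task, block E of helper1). Helper names start with `ebump0_`.
Plan. Margin: `3 s ‖a‖^2 ≤ levi t y a + levi φ y a` for some `s > 0` (compactness of the unit sphere, continuity in `a`, real homogeneity). `q z = (φ y + s r^2 / 2) + D₁ (z - y) + D₂ (z - y) (z - y) / 2 - s ‖z - y‖^2`, `D₁ = fderiv φ y`, `D₂ = fderiv (fderiv φ) y` (`quad_levi`: `levi q z a = levi φ y a - s ‖a‖^2`). For `z` near `y`: `t` is smooth at `z`, `‖D²t z - D²t y‖ ≤ s` so `levi t z a ≥ levi t y a - s ‖a‖^2`; `TwD.add`, `TwD.wsub`. `TwD.jet` with `δ = s / 4` gives `q < φ` on the sphere. `q₀ z < u z - η` near `y` for the part `q₀` without `s r^2 / 2`, and `s r^2 / 2 ≤ η` for small `r`. Collect the conditions as `∀ᶠ z in 𝓝 y`, take a ball. -/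

open Metric Set Filter Topology Complex
open scoped ContDiff

noncomputable section

namespace Vale.Agent.P272

variable {n : ℕ}

theorem ebump0_smul (u : E n → ℝ) (y a : E n) (c : ℝ) :
    levi u y (c • a) = c ^ 2 * levi u y a := by
  unfold levi
  rw [smul_comm I c a]
  simp only [map_smul, smul_apply, smul_eq_mul]
  ring

theorem ebump0_cont (u : E n → ℝ) (y : E n) : Continuous fun a => levi u y a := by
  unfold levi
  fun_prop

theorem ebump0_ev {F : Type} [NormedAddCommGroup F] {g : E n → F} {y : E n}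
    (hc : ContinuousAt g y) {s : ℝ} (hs : 0 < s) : ∀ᶠ z in 𝓝 y, ‖g z - g y‖ < s := by
  refine ContinuousAt.eventually_lt (hc.sub continuousAt_const).norm continuousAt_const ?_
  simpa using hs

theorem ebump0_margin {f : E n → ℝ} (hc : Continuous f)
    (hh : ∀ (c : ℝ) a, f (c • a) = c ^ 2 * f a) (pos : ∀ a, a ≠ 0 → 0 < f a) :
    ∃ s : ℝ, 0 < s ∧ ∀ a, 3 * s * ‖a‖ ^ 2 ≤ f a := by
  have h0 : f 0 = 0 := by
    have := hh 0 0
    simpa using this
  have key : ∀ m : ℝ, (∀ a : E n, ‖a‖ = 1 → m ≤ f a) → ∀ a, m * ‖a‖ ^ 2 ≤ f a := by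
    intro m hm a
    by_cases ha : a = 0
    · simp [ha, h0]
    · have hn : 0 < ‖a‖ := norm_pos_iff.2 ha
      have h1 := hm (‖a‖⁻¹ • a) (by rw [norm_smul, norm_inv, norm_norm, inv_mul_cancel₀ hn.ne'])
      have h2 : f a = ‖a‖ ^ 2 * f (‖a‖⁻¹ • a) := by
        rw [← hh, smul_smul, mul_inv_cancel₀ hn.ne', one_smul]
      rw [h2, mul_comm]
      exact mul_le_mul_of_nonneg_left h1 (by positivity)
  by_cases hne : (sphere (0 : E n) 1).Nonempty
  · obtain ⟨b, hb, hmin⟩ := (isCompact_sphere (0 : E n) 1).exists_isMinOn hne hc.continuousOn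
    have hb1 : ‖b‖ = 1 := by simpa using hb
    have hb0 : b ≠ 0 := by
      rintro rfl
      simp at hb1
    refine ⟨f b / 3, by have := pos b hb0; positivity, fun a => ?_⟩
    have := key (f b) (fun a ha => hmin (by simpa using ha)) a
    linarith
  · refine ⟨1, one_pos, fun a => ?_⟩
    have := key 3 (fun a ha => absurd ⟨a, by simpa using ha⟩ hne) a
    linarith

theorem bump0 {t φ u : E n → ℝ} {y : E n} (ht : ∀ᶠ z in 𝓝 y, ContDiffAt ℝ ∞ t z) (hφ : TwD φ y)
    (hu : ContinuousAt u y) (lt : φ y < u y) (pos : ∀ a, a ≠ 0 → 0 < levi t y a + levi φ y a)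
    {R : ℝ} (hR : 0 < R) : ∃ (q : E n → ℝ) (r : ℝ), 0 < r ∧ r ≤ R ∧ Continuous q ∧ φ y < q y ∧
      (∀ z, ‖z - y‖ = r → q z < φ z) ∧
      ∀ z, ‖z - y‖ ≤ r → q z ≤ u z ∧ WSub (fun z => t z + q z) z := by
  obtain ⟨s, hs, hm⟩ := ebump0_margin (f := fun a => levi t y a + levi φ y a)
    ((ebump0_cont t y).add (ebump0_cont φ y))
    (fun c a => by simp only [ebump0_smul]; ring) pos
  set D₁ := fderiv ℝ φ y with hD₁
  set D₂ := fderiv ℝ (fderiv ℝ φ) y with hD₂
  have hq0 := (quad_levi (φ y) s y D₁ D₂).1.continuous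
  set η := (u y - φ y) / 2 with hη
  have hη0 : 0 < η := by rw [hη]; linarith
  have e1 : ∀ᶠ z in 𝓝 y, φ y + D₁ (z - y) + D₂ (z - y) (z - y) / 2 - s * ‖z - y‖ ^ 2 + η < u z := by
    refine ContinuousAt.eventually_lt (hq0.continuousAt.add continuousAt_const) hu ?_
    simp only [sub_self, map_zero, norm_zero]
    rw [hη]
    linarith
  have hty := ht.self_of_nhds
  have hc2 : ContinuousAt (fderiv ℝ (fderiv ℝ t)) y := by
    have a1 : ContDiffAt ℝ 1 (fderiv ℝ t) y :=
      hty.fderiv_right (WithTop.coe_le_coe.2 le_top : (1 + 1 : WithTop ℕ∞) ≤ ∞)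
    exact (a1.fderiv_right (m := 0) (by norm_num)).continuousAt
  have e2 : ∀ᶠ z in 𝓝 y, ‖fderiv ℝ (fderiv ℝ t) z - fderiv ℝ (fderiv ℝ t) y‖ < s := by
    exact ebump0_ev (F := E n →L[ℝ] E n →L[ℝ] ℝ) hc2 hs
  have e3 : ∀ᶠ z in 𝓝 y, |φ z - φ y - D₁ (z - y) - D₂ (z - y) (z - y) / 2| ≤
      s / 4 * ‖z - y‖ ^ 2 := by
    have h1 : Tendsto (fun z : E n => z - y) (𝓝 y) (𝓝 0) := by
      have h2 : Continuous fun z : E n => z - y := by fun_prop
      have := h2.tendsto y
      rwa [sub_self] at this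
    filter_upwards [h1.eventually (hφ.jet (by positivity : 0 < s / 4))] with z hz
    rwa [add_sub_cancel] at hz
  obtain ⟨ε, hε, hball⟩ := Metric.eventually_nhds_iff_ball.1 (ht.and (e1.and (e2.and e3)))
  obtain ⟨r, hr0, hrR, hrε, hrη⟩ : ∃ r : ℝ, 0 < r ∧ r ≤ R ∧ r < ε ∧ s * r ^ 2 / 2 ≤ η := by
    have a1 := min_le_left (min R (ε / 2)) (min 1 (2 * η / s))
    have a2 := min_le_right (min R (ε / 2)) (min 1 (2 * η / s))
    have a3 := min_le_left R (ε / 2)
    have a4 := min_le_right R (ε / 2)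
    have a5 := min_le_left 1 (2 * η / s)
    have a6 := min_le_right 1 (2 * η / s)
    have a0 : 0 < min (min R (ε / 2)) (min 1 (2 * η / s)) := by positivity
    generalize min (min R (ε / 2)) (min 1 (2 * η / s)) = r at a0 a1 a2
    refine ⟨r, a0, by linarith, by linarith, ?_⟩
    have b1 : r * s ≤ 2 * η := (le_div_iff₀ hs).1 (by linarith)
    have b2 : r ≤ 1 := by linarith
    have b3 : r * s * r ≤ r * s * 1 := mul_le_mul_of_nonneg_left b2 (by positivity)
    nlinarith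
  obtain ⟨hq, hql⟩ := quad_levi (φ y + s * r ^ 2 / 2) s y D₁ D₂
  have hmem : ∀ z : E n, ‖z - y‖ ≤ r → z ∈ ball y ε := fun z hz => by
    rw [mem_ball, dist_eq_norm]
    linarith
  refine ⟨_, r, hr0, hrR, hq.continuous, ?_, fun z hz => ?_, fun z hz => ?_⟩
  · simp only [sub_self, map_zero, norm_zero]
    have : 0 < s * r ^ 2 := by positivity
    linarith
  · have h3 := (abs_le.1 (hball z (hmem z hz.le)).2.2.2).1
    rw [hz] at h3 ⊢
    have : 0 < s * r ^ 2 := by positivity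
    linarith
  · obtain ⟨h0, h1, h2, -⟩ := hball z (hmem z hz)
    refine ⟨by linarith, ?_⟩
    obtain ⟨b1, b2⟩ := (twd_of_smooth h0).add (twd_of_smooth hq.contDiffAt)
    refine b1.wsub fun a => ?_
    rw [b2, hql]
    have c1 := (abs_le.1 (Vale.Agent.P272.R.rl_dist t z y a)).1
    have c2 := mul_le_mul_of_nonneg_right h2.le (sq_nonneg ‖a‖)
    have c3 := hm a
    have c4 : levi φ y a = (D₂ a a + D₂ (I • a) (I • a)) / 4 := rfl
    have c5 : 0 ≤ s * ‖a‖ ^ 2 := by positivity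
    linarith

end Vale.Agent.P272
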