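import Vale.Agent.P272.F.Defs

/-! P272 F/E (block E, helper1, frozen): definitions for the envelope. -/

open Metric Set Filter Topology Complex
open scoped ContDiff

noncomputable section

namespace Vale.Agent.P272

variable {n : ℕ}

/-- Submean inequality on closed holomorphic discs in `U`. -/
def SubM (w : E n → ℝ) (U : Set (E n)) : Prop :=
  ∀ f : ℂ → E n, (∀ z, ‖z‖ ≤ 1 → DifferentiableAt ℂ f z ∧ f z ∈ U) →
    w (f 0) ≤ Real.circleAverage (fun z => w (f z)) 0 1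

/-- Infinitesimal submean inequality at `y`. -/
def WSub (w : E n → ℝ) (y : E n) : Prop :=
  ∀ f : ℂ → E n, (∀ᶠ z in 𝓝 (0 : ℂ), DifferentiableAt ℂ f z) → f 0 = y → ∀ δ : ℝ, 0 < δ →
    ∃ᶠ r in 𝓝[>] (0 : ℝ), w y ≤ Real.circleAverage (fun z => w (f z)) 0 r + δ * r ^ 2

/-- Twice differentiable at `y`. -/
def TwD (u : E n → ℝ) (y : E n) : Prop :=
  (∀ᶠ z in 𝓝 y, DifferentiableAt ℝ u z) ∧ DifferentiableAt ℝ (fderiv ℝ u) y

/-- Continuous near `y`. -/
def CtN {Y : Type} [TopologicalSpace Y] (u : Y → ℝ) (y : Y) : Prop := ∀ᶠ z in 𝓝 y, ContinuousAt u z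

/-- The mean of two translates. -/
def sy (w : E n → ℝ) (σ : ℝ) (y h : E n) : ℝ := (w (y + h) + w (y + σ • h)) / 2

/-- The maximum over a ball of radius `exp s`. -/
def kS (w : E n → ℝ) (σ : ℝ) (y : E n) (s : ℝ) : ℝ :=
  sSup ((fun h => sy w σ y (Real.exp s • h)) '' closedBall 0 1)

/-- The Kiselman transform. -/
def kF (w : E n → ℝ) (σ c a b : ℝ) (y : E n) : ℝ :=
  sInf ((fun s => kS w σ y s + c * (b - s)) '' Icc a b)

namespace Atl

variable {X : Type} [TopologicalSpace X] {A : Atl n X}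

/-- `p` is `τ`-plurisubharmonic at `x`. -/
def Psh (τ : A.Pot) (p : X → ℝ) (x : X) : Prop :=
  ∀ j, x ∈ (A.e j).source → WSub (fun y => τ.u j y + A.loc p j y) (A.e j x)

/-- The competitors. -/
def Fam (τ : A.Pot) (u p : X → ℝ) : Prop := Continuous p ∧ (∀ x, p x ≤ u x) ∧ ∀ x, Psh τ p x

/-- The envelope. -/
def envF (τ : A.Pot) (u : X → ℝ) (x : X) : ℝ := sSup ((fun p : X → ℝ => p x) '' {p | Fam τ u p})

end Atl

end Vale.Agent.P272
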