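import Vale.Agent.P272.F.E.Defs

/-! P272 F/E/Harm (task, block E of helper1). Helper names start with `eharm_`.
Plan. `harm_approx`: `G : C(AddCircle (2π), ℂ)`, `G t = g (toCircle t)` (or `fourier 1 t`); `span_fourier_closure_eq_top` gives `F` in the span with `‖F - G‖ < ε`. Span induction: every `F` in the span has an entire `W` with `re (c F t) = re (W (fourier 1 t))` (prove it for all `c`, or prove `F t = P z + conj (Q z)` with entire `P, Q`, and take `W = P + Q`): `fourier m t = z ^ m` for `m ≥ 0`, `conj (z ^ m)` for `- m`. Every `z` of norm one is `fourier 1 t`. (`ContinuousMap.subalgebra_topologicalClosure_eq_top_of_separatesPoints` is an alternative.) `re_le_of_circle`: `Complex.norm_le_of_forall_mem_frontier_norm_le` for `exp (W z)` on `ball 0 1`. `avg_re`: `DiffContOnCl.circleAverage` and `reCLM`. -/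

open Metric Set Filter Topology Complex
open scoped ContDiff

noncomputable section

namespace Vale.Agent.P272

lemma eharm_span {F : C(AddCircle (1 : ℝ), ℂ)}
    (hF : F ∈ Submodule.span ℂ (range (@fourier (1 : ℝ)))) (c : ℂ) :
    ∃ W : ℂ → ℂ, Differentiable ℂ W ∧ ∀ t, (W (AddCircle.toCircle t)).re = (c * F t).re := by
  induction hF using Submodule.span_induction generalizing c with
  | mem F hF =>
    obtain ⟨m, rfl⟩ := hF
    have e : ∀ (k : ℕ) (t : AddCircle (1 : ℝ)),
        fourier (k : ℤ) t = ((AddCircle.toCircle t : Circle) : ℂ) ^ k := fun k t => by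
      rw [fourier_apply, natCast_zsmul, AddCircle.toCircle_nsmul, Circle.coe_pow]
    obtain ⟨k, rfl | rfl⟩ := Int.eq_nat_or_neg m
    · exact ⟨fun z => c * z ^ k, by fun_prop, fun t => by rw [e]⟩
    · refine ⟨fun z => (starRingEnd ℂ) c * z ^ k, by fun_prop, fun t => ?_⟩
      rw [fourier_neg, e, ← conj_re, map_mul, conj_conj]
  | zero => exact ⟨fun _ => 0, by fun_prop, fun t => by simp⟩
  | add F G _ _ h1 h2 =>
    obtain ⟨W₁, a1, b1⟩ := h1 c
    obtain ⟨W₂, a2, b2⟩ := h2 c
    refine ⟨fun z => W₁ z + W₂ z, a1.add a2, fun t => ?_⟩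
    rw [add_re, b1, b2, ContinuousMap.add_apply, mul_add, add_re]
  | smul a F _ h1 =>
    obtain ⟨W, a1, b1⟩ := h1 (c * a)
    refine ⟨W, a1, fun t => ?_⟩
    rw [b1, ContinuousMap.smul_apply, smul_eq_mul, mul_assoc]

theorem harm_approx {g : ℂ → ℝ} (hg : ContinuousOn g (sphere 0 1)) {ε : ℝ} (hε : 0 < ε) :
    ∃ W : ℂ → ℂ, Differentiable ℂ W ∧ ∀ z, ‖z‖ = 1 → |(W z).re - g z| ≤ ε := by
  have hm : ∀ t : AddCircle (1 : ℝ), ((AddCircle.toCircle t : Circle) : ℂ) ∈ sphere (0 : ℂ) 1 :=
    fun t => mem_sphere_zero_iff_norm.2 (Circle.norm_coe _)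
  have hc : Continuous fun t : AddCircle (1 : ℝ) => ((AddCircle.toCircle t : Circle) : ℂ) :=
    continuous_subtype_val.comp AddCircle.continuous_toCircle
  let G : C(AddCircle (1 : ℝ), ℂ) :=
    ⟨fun t => (g (AddCircle.toCircle t) : ℂ), continuous_ofReal.comp (hg.comp_continuous hc hm)⟩
  have hG : G ∈ closure (Submodule.span ℂ (range (@fourier (1 : ℝ))) : Set C(AddCircle (1 : ℝ), ℂ)) := by
    rw [← Submodule.topologicalClosure_coe, span_fourier_closure_eq_top]
    exact mem_univ _
  obtain ⟨F, hF, hd⟩ := Metric.mem_closure_iff.1 hG ε hε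
  obtain ⟨W, hW, h⟩ := eharm_span hF 1
  refine ⟨W, hW, fun z hz => ?_⟩
  obtain ⟨t, ht⟩ := (AddCircle.homeomorphCircle (T := 1) one_ne_zero).surjective
    ⟨z, mem_sphere_zero_iff_norm.2 hz⟩
  rw [AddCircle.homeomorphCircle_apply] at ht
  have e : ((AddCircle.toCircle t : Circle) : ℂ) = z := by rw [ht]
  have h1 : ‖F t - G t‖ ≤ ε := by
    rw [← dist_eq_norm, dist_comm]
    exact (ContinuousMap.dist_apply_le_dist t).trans hd.le
  have h2 : (F t - G t).re = (W z).re - g z := by
    rw [← e, h, one_mul, sub_re]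
    rfl
  rw [← h2]
  exact (abs_re_le_norm _).trans h1

theorem re_le_of_circle {W : ℂ → ℂ} (hW : Differentiable ℂ W) {b : ℝ}
    (h : ∀ z, ‖z‖ = 1 → (W z).re ≤ b) (z : ℂ) (hz : ‖z‖ ≤ 1) : (W z).re ≤ b := by
  have h1 : ‖Complex.exp (W z)‖ ≤ Real.exp b := by
    refine Complex.norm_le_of_forall_mem_frontier_norm_le (f := fun z => Complex.exp (W z))
      (isBounded_ball (x := (0 : ℂ)) (r := 1)) hW.cexp.diffContOnCl (fun w hw => ?_) ?_
    · rw [frontier_ball _ one_ne_zero] at hw
      rw [Complex.norm_exp]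
      exact Real.exp_le_exp.2 (h w (mem_sphere_zero_iff_norm.1 hw))
    · rw [closure_ball _ one_ne_zero]
      exact mem_closedBall_zero_iff.2 hz
  rw [Complex.norm_exp] at h1
  exact Real.exp_le_exp.1 h1

theorem avg_re {W : ℂ → ℂ} (hW : Differentiable ℂ W) (c : ℂ) (r : ℝ) :
    Real.circleAverage (fun z => (W z).re) c r = (W c).re := by
  have h1 := reCLM.circleAverage_comp_comm (f := W) (c := c) (R := r)
    hW.continuous.continuousOn.circleIntegrable'
  rw [(hW.diffContOnCl).circleAverage] at h1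
  exact h1

end Vale.Agent.P272
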