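import Vale.Agent.P272.F.E.Defs

/-! P272 F/E/Jet (task, block E of helper1). Helper names start with `ejet_`.
Plan. `jet`: along the ray `t ↦ u (y + t k) - t Du k - t^2 D²u k k / 2` the derivative is `(Du (y + t k) - Du y - D²u (t k)) k`, at most `δ ‖k‖^2` (`HasFDerivAt.isLittleO`, ball on which `u` is differentiable, `norm_image_sub_le_of_norm_deriv_le_segment_01'`); no symmetry is needed. `sec`: add `jet` at `t a` and `- t a`. `levi_add`: `fderiv (u + v) =ᶠ fderiv u + fderiv v` (`eventually_eventually_nhds`), `Filter.EventuallyEq.fderiv_eq`. -/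

open Metric Set Filter Topology Complex
open scoped ContDiff

noncomputable section

namespace Vale.Agent.P272

variable {n : ℕ}

theorem TwD.jet {u : E n → ℝ} {y : E n} (h : TwD u y) {δ : ℝ} (hδ : 0 < δ) :
    ∀ᶠ k in 𝓝 (0 : E n), |u (y + k) - u y - fderiv ℝ u y k - fderiv ℝ (fderiv ℝ u) y k k / 2| ≤
      δ * ‖k‖ ^ 2 := by
  have h1 := (hasFDerivAt_iff_isLittleO_nhds_zero.1 h.2.hasFDerivAt).def hδ
  have h2 : ∀ᶠ k in 𝓝 (0 : E n), DifferentiableAt ℝ u (y + k) := by
    have h3 : Tendsto (fun k : E n => y + k) (𝓝 0) (𝓝 y) := by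
      simpa using (continuous_const_add y).tendsto 0
    exact h3.eventually h.1
  obtain ⟨r, hr, h3⟩ := Metric.eventually_nhds_iff_ball.1 (h1.and h2)
  filter_upwards [ball_mem_nhds (0 : E n) hr] with k hk
  have h4 : ∀ t ∈ Icc (0 : ℝ) 1, ‖t • k‖ ≤ ‖k‖ := fun t ht => by
    rw [norm_smul, Real.norm_eq_abs, abs_of_nonneg ht.1]
    exact mul_le_of_le_one_left (norm_nonneg _) ht.2
  have h5 : ∀ t ∈ Icc (0 : ℝ) 1, t • k ∈ ball (0 : E n) r := fun t ht =>
    mem_ball_zero_iff.2 ((h4 t ht).trans_lt (mem_ball_zero_iff.1 hk))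
  have h6 := norm_image_sub_le_of_norm_deriv_le_segment_01'
    (f := fun t : ℝ => u (y + t • k) - t * fderiv ℝ u y k -
      t ^ 2 * (fderiv ℝ (fderiv ℝ u) y k k / 2))
    (f' := fun t : ℝ => (fderiv ℝ u (y + t • k) - fderiv ℝ u y - fderiv ℝ (fderiv ℝ u) y (t • k)) k)
    (C := δ * ‖k‖ ^ 2) (fun t ht => ?_) fun t ht => ?_
  · rw [Real.norm_eq_abs] at h6
    refine le_trans (le_of_eq (congrArg _ ?_)) h6
    simp only [one_smul, zero_smul, add_zero]
    ring
  · have d1 : HasDerivAt (fun t : ℝ => y + t • k) k t := by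
      simpa using ((hasDerivAt_id t).smul_const k).const_add y
    have d2 := (h3 _ (h5 t ht)).2.hasFDerivAt.comp_hasDerivAt t d1
    have d3 := (d2.fun_sub ((hasDerivAt_id t).mul_const (fderiv ℝ u y k))).fun_sub
      ((hasDerivAt_pow 2 t).mul_const (fderiv ℝ (fderiv ℝ u) y k k / 2))
    refine (d3.congr_deriv ?_).hasDerivWithinAt
    simp only [sub_apply, map_smul, smul_apply, smul_eq_mul]
    push_cast
    ring
  · have ht' := Ico_subset_Icc_self ht
    refine (ContinuousLinearMap.le_opNorm _ k).trans ?_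
    rw [sq, ← mul_assoc]
    exact mul_le_mul_of_nonneg_right ((h3 _ (h5 t ht')).1.trans
      (mul_le_mul_of_nonneg_left (h4 t ht') hδ.le)) (norm_nonneg _)

theorem TwD.sec {u : E n → ℝ} {y : E n} (h : TwD u y) (a : E n) :
    Tendsto (fun t : ℝ => (u (y + t • a) + u (y + (-1 : ℝ) • t • a) - 2 * u y) / t ^ 2) (𝓝[>] 0)
      (𝓝 (fderiv ℝ (fderiv ℝ u) y a a)) := by
  refine Metric.tendsto_nhds.2 fun ε hε => ?_
  have h0 : 0 < 2 * ‖a‖ ^ 2 + 1 := by positivity
  have h1 := h.jet (div_pos hε h0)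
  have t1 : Tendsto (fun t : ℝ => t • a) (𝓝[>] 0) (𝓝 0) := by
    have : Continuous fun t : ℝ => t • a := by fun_prop
    simpa using (this.tendsto 0).mono_left nhdsWithin_le_nhds
  have t2 : Tendsto (fun t : ℝ => (-1 : ℝ) • t • a) (𝓝[>] 0) (𝓝 0) := by
    simpa using t1.const_smul (-1 : ℝ)
  filter_upwards [t1.eventually h1, t2.eventually h1, self_mem_nhdsWithin] with t a1 a2 ht
  have ht0 : (0 : ℝ) < t := ht
  have ht2 : 0 < t ^ 2 := by positivity
  simp only [map_smul, smul_apply, smul_eq_mul, norm_smul, Real.norm_eq_abs, abs_neg, abs_one,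
    one_mul, mul_pow, sq_abs] at a1 a2
  have h2 : ε / (2 * ‖a‖ ^ 2 + 1) * (2 * ‖a‖ ^ 2) < ε := by
    rw [div_mul_eq_mul_div, div_lt_iff₀ h0]
    linarith
  have h3 := mul_lt_mul_of_pos_right h2 ht2
  obtain ⟨b1, b2⟩ := abs_le.1 a1
  obtain ⟨b3, b4⟩ := abs_le.1 a2
  rw [Real.dist_eq, div_sub' ht2.ne', abs_div, abs_of_pos ht2, div_lt_iff₀ ht2, abs_lt]
  constructor <;> linarith

theorem twd_of_smooth {u : E n → ℝ} {y : E n} (h : ContDiffAt ℝ ∞ u y) : TwD u y := by
  have h1 : ContDiffAt ℝ 2 u y := h.of_le (WithTop.coe_le_coe.2 (le_top (a := (2 : ℕ∞))))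
  refine ⟨(h1.eventually (by simp)).mono fun z hz => hz.differentiableAt (by simp), ?_⟩
  exact (h1.fderiv_right (m := 1) (by norm_num)).differentiableAt (by simp)

theorem TwD.ctn {u : E n → ℝ} {y : E n} (h : TwD u y) : CtN u y := by
  exact h.1.mono fun z hz => hz.continuousAt

theorem TwD.add {u v : E n → ℝ} {y : E n} (hu : TwD u y) (hv : TwD v y) :
    TwD (fun z => u z + v z) y ∧
      ∀ a, levi (fun z => u z + v z) y a = levi u y a + levi v y a := by
  have e : fderiv ℝ (fun z => u z + v z) =ᶠ[𝓝 y] fun z => fderiv ℝ u z + fderiv ℝ v z :=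
    (hu.1.and hv.1).mono fun z hz => fderiv_fun_add hz.1 hz.2
  refine ⟨⟨(hu.1.and hv.1).mono fun z hz => hz.1.add hz.2,
    (hu.2.add hv.2).congr_of_eventuallyEq e⟩, fun a => ?_⟩
  simp only [levi, e.fderiv_eq, fderiv_fun_add hu.2 hv.2, add_apply]
  ring

theorem TwD.const_mul {u : E n → ℝ} {y : E n} (hu : TwD u y) (c : ℝ) :
    TwD (fun z => c * u z) y ∧ ∀ a, levi (fun z => c * u z) y a = c * levi u y a := by
  have e : fderiv ℝ (fun z => c * u z) =ᶠ[𝓝 y] fun z => c • fderiv ℝ u z :=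
    hu.1.mono fun z hz => fderiv_const_mul hz c
  refine ⟨⟨hu.1.mono fun z hz => hz.const_mul c,
    (hu.2.const_smul c).congr_of_eventuallyEq e⟩, fun a => ?_⟩
  simp only [levi, e.fderiv_eq, fderiv_fun_const_smul hu.2, smul_apply, smul_eq_mul]
  ring

end Vale.Agent.P272
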