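import Vale.Agent.P272.F.E.Sel
import Vale.Agent.P272.F.E.Harm

/-! P272 F/E/SelH (task, block E of helper1). Helper names start with `eselh_`.
Plan. Take `s` from `sel_cont` (error `ε / 2`), contract it, `s' = (1 - κ) s + κ (a + b) / 2 ∈ [a + κ (b - a) / 2, b - κ (b - a) / 2]`, approximate `s'` by `re W` within `κ (b - a) / 2` (`harm_approx`); `re_le_of_circle` for `W` and `- W`. On the circle `|re W - s| ≤ κ (b - a)`, choose `κ` by uniform continuity of `g` on `sphere 0 1 ×ˢ Icc a b`; `circleAverage_mono`. -/

open Metric Set Filter Topology Complex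
open scoped ContDiff

noncomputable section

namespace Vale.Agent.P272

theorem sel_hol {g : ℂ → ℝ → ℝ} (hg : Continuous fun p : ℂ × ℝ => g p.1 p.2) {a b ε : ℝ}
    (hab : a < b) (hε : 0 < ε) : ∃ W : ℂ → ℂ, Differentiable ℂ W ∧
      (∀ z, ‖z‖ ≤ 1 → (W z).re ∈ Icc a b) ∧ Real.circleAverage (fun z => g z (W z).re) 0 1 ≤
        Real.circleAverage (fun z => sInf (g z '' Icc a b)) 0 1 + ε := by
  obtain ⟨s, hs, hsm, hsa⟩ := sel_cont hg hab.le (half_pos hε)
  have hK : IsCompact (sphere (0 : ℂ) 1 ×ˢ Icc a b) := (isCompact_sphere 0 1).prod isCompact_Icc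
  obtain ⟨δ, hδ, hu⟩ := Metric.uniformContinuousOn_iff.1
    (hK.uniformContinuousOn_of_continuous hg.continuousOn) (ε / 2) (half_pos hε)
  set η := min (δ / 4) ((b - a) / 2) with hη
  have h0 : 0 < η := lt_min (by positivity) (by linarith)
  have h1 : η ≤ δ / 4 := min_le_left _ _
  have h2 : η ≤ (b - a) / 2 := min_le_right _ _
  have hc : Continuous fun z => max (a + η) (min (s z) (b - η)) := by fun_prop
  obtain ⟨W, hW, hWa⟩ := harm_approx hc.continuousOn h0
  have key : ∀ z, ‖z‖ = 1 → a ≤ (W z).re ∧ (W z).re ≤ b ∧ |(W z).re - s z| ≤ 2 * η := by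
    intro z hz
    have h3 := abs_le.1 (hWa z hz)
    obtain ⟨h4, h5⟩ := hsm z
    have h6 : a + η ≤ max (a + η) (min (s z) (b - η)) := le_max_left _ _
    have h7 : max (a + η) (min (s z) (b - η)) ≤ b - η := max_le (by linarith) (min_le_right _ _)
    have h8 : max (a + η) (min (s z) (b - η)) ≤ s z + η :=
      max_le (by linarith) ((min_le_left _ _).trans (by linarith))
    have h9 : s z - η ≤ max (a + η) (min (s z) (b - η)) :=
      le_max_of_le_right (le_min (by linarith) (by linarith))
    exact ⟨by linarith [h3.1], by linarith [h3.2], abs_le.2 ⟨by linarith [h3.1], by linarith [h3.2]⟩⟩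
  refine ⟨W, hW, fun z hz => ⟨?_, re_le_of_circle hW (fun z hz => (key z hz).2.1) z hz⟩, ?_⟩
  · have := re_le_of_circle (W := fun z => -W z) (b := -a) hW.neg
      (fun z hz => by simpa using (key z hz).1) z hz
    simpa using this
  · have c1 : Continuous fun z => g z (W z).re :=
      hg.comp (continuous_id.prodMk (continuous_re.comp hW.continuous))
    have c2 : Continuous fun z => g z (s z) := hg.comp (continuous_id.prodMk hs)
    have m := Real.circleAverage_mono (c := 0) (R := 1) (f₁ := fun z => g z (W z).re)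
      (f₂ := fun z => g z (s z) + ε / 2) c1.continuousOn.circleIntegrable'
      (c2.add continuous_const).continuousOn.circleIntegrable' (fun z hz => by
        rw [abs_one] at hz
        have hz' : ‖z‖ = 1 := by simpa using hz
        obtain ⟨k1, k2, k3⟩ := key z hz'
        have := hu (z, (W z).re) ⟨hz, k1, k2⟩ (z, s z) ⟨hz, hsm z⟩ (by
          rw [Prod.dist_eq, dist_self, Real.dist_eq]
          exact max_lt hδ (by linarith))
        rw [Real.dist_eq] at this
        linarith [(abs_lt.1 this).2])
    rw [Real.circleAverage_fun_add c2.continuousOn.circleIntegrable' (circleIntegrable_const _ _ _),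
      Real.circleAverage_const] at m
    linarith

end Vale.Agent.P272
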