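import Vale.Agent.P272.F.E.KC
import Vale.Agent.P272.F.E.SelH

/-! P272 F/E/KS (task, block E of helper1). Helper names start with `eks_`.
Plan. Kiselman. Given a disc `f` in `ball 0 3`, let `f' z = f ((1 / max 1 ‖z‖) • z)` (continuous, equal to `f` on the closed disc), `g z s = kS w σ (f' z) s + c (b - s)`, `W` from `sel_hol`. `kF (f 0) ≤ kS (f 0) (re (W 0)) + c (b - re (W 0))` (`kF_le`). For `‖h‖ ≤ exp (re (W 0))` put `h₀ = exp (- W 0) • h`; `SubM` on the discs `z ↦ f z + exp (W z) • h₀` and `z ↦ f z + σ • exp (W z) • h₀` (norm `< 4`) and `le_kS` give `sy w σ (f 0) h ≤ average of kS w σ (f z) (re (W z))`; `kS_le`; `avg_re` for the linear term; `circleAverage_congr_sphere`; let `ε → 0` (`le_of_forall_pos_le_add`). -/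

open Metric Set Filter Topology Complex
open scoped ContDiff

noncomputable section

namespace Vale.Agent.P272

variable {n : ℕ}

theorem eks_ext {f : ℂ → E n} (hf : ContinuousOn f (closedBall 0 1)) :
    ∃ f' : ℂ → E n, Continuous f' ∧ ∀ z, ‖z‖ ≤ 1 → f' z = f z := by
  have h0 : ∀ z : ℂ, 0 < max 1 ‖z‖ := fun z => lt_max_of_lt_left one_pos
  refine ⟨fun z => f ((max 1 ‖z‖)⁻¹ • z), hf.comp_continuous
    (((continuous_const.max continuous_norm).inv₀ fun z => (h0 z).ne').smul continuous_id)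
      fun z => mem_closedBall_zero_iff.2 ?_, fun z hz => ?_⟩
  · rw [norm_smul, norm_inv, Real.norm_of_nonneg (h0 z).le, inv_mul_le_one₀ (h0 z)]
    exact le_max_right _ _
  · simp only [max_eq_left hz, inv_one, one_smul]

theorem eks_avg {w : E n → ℝ} (hw : Continuous w) (hs : SubM w (ball 0 4)) {σ : ℝ} (hσ : |σ| ≤ 1)
    {f : ℂ → E n} (hf : ∀ z, ‖z‖ ≤ 1 → DifferentiableAt ℂ f z ∧ f z ∈ ball 0 3) {W : ℂ → ℂ}
    (hW : Differentiable ℂ W) (hb : ∀ z, ‖z‖ ≤ 1 → (W z).re ≤ 0) :
    kS w σ (f 0) (W 0).re ≤ Real.circleAverage (fun z => kS w σ (f z) (W z).re) 0 1 := by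
  have hc : ContinuousOn f (sphere 0 1) := fun z hz =>
    (hf z (mem_sphere_zero_iff_norm.1 hz).le).1.continuousAt.continuousWithinAt
  have hc' := hW.continuous
  have h1 : ∀ v : E n, CircleIntegrable (fun z => w (f z + exp (W z) • v)) 0 1 := fun v =>
    (hw.comp_continuousOn (hc.add (by fun_prop))).circleIntegrable zero_le_one
  have h2 : ∀ v : E n, ‖v‖ ≤ 1 → ∀ z, ‖exp (W z) • v‖ ≤ Real.exp (W z).re := fun v hv z => by
    rw [norm_smul, norm_exp]
    exact mul_le_of_le_one_right (Real.exp_pos _).le hv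
  have h3 : ∀ v : E n, ‖v‖ ≤ 1 → w (f 0 + exp (W 0) • v) ≤
      Real.circleAverage (fun z => w (f z + exp (W z) • v)) 0 1 := fun v hv => by
    refine hs (fun z => f z + exp (W z) • v) fun z hz =>
      ⟨(hf z hz).1.add ((hW z).cexp.smul_const v), mem_ball_zero_iff.2 ?_⟩
    have a1 := mem_ball_zero_iff.1 (hf z hz).2
    have a2 := (h2 v hv z).trans (Real.exp_le_one_iff.2 (hb z hz))
    linarith [norm_add_le (f z) (exp (W z) • v)]
  have h4 : CircleIntegrable (fun z => kS w σ (f z) (W z).re) 0 1 :=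
    ((kS_cont hw σ).comp_continuousOn (hc.prodMk
      (continuous_re.comp hc').continuousOn)).circleIntegrable zero_le_one
  refine kS_le fun h hh => ?_
  obtain ⟨v, hv, rfl⟩ : ∃ v : E n, ‖v‖ ≤ 1 ∧ h = exp (W 0) • v := by
    refine ⟨(exp (W 0))⁻¹ • h, ?_, (smul_inv_smul₀ (exp_ne_zero _) h).symm⟩
    rwa [norm_smul, norm_inv, norm_exp, inv_mul_le_one₀ (Real.exp_pos _)]
  have hv' : ‖σ • v‖ ≤ 1 := by
    rw [norm_smul, Real.norm_eq_abs]
    exact mul_le_one₀ hσ (norm_nonneg _) hv
  have h5 := Real.circleAverage_mono ((h1 v).add (h1 (σ • v))) (h4.add h4) fun z _ => by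
    have a1 := le_kS hw σ (f z) (h2 v hv z)
    rw [sy, smul_comm σ] at a1
    simp only [Pi.add_apply]
    linarith
  rw [Real.circleAverage_add (h1 v) (h1 (σ • v)), Real.circleAverage_add h4 h4] at h5
  rw [sy, smul_comm σ]
  linarith [h3 v hv, h3 _ hv']

theorem kF_subm {w : E n → ℝ} (hw : Continuous w) (hs : SubM w (ball 0 4)) {σ a b : ℝ}
    (hσ : |σ| ≤ 1) (c : ℝ) (hab : a < b) (hb : b ≤ 0) : SubM (kF w σ c a b) (ball 0 3) := by
  intro f hf
  obtain ⟨f', hc, he⟩ := eks_ext (f := f) fun z hz =>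
    (hf z (mem_closedBall_zero_iff.1 hz)).1.continuousAt.continuousWithinAt
  have he' : ∀ z ∈ sphere (0 : ℂ) |1|, f' z = f z := fun z hz =>
    he z ((mem_sphere_zero_iff_norm.1 hz).trans abs_one).le
  refine le_of_forall_pos_le_add fun ε hε => ?_
  obtain ⟨W, hW, h1, h2⟩ := sel_hol (g := fun z s => kS w σ (f' z) s + c * (b - s))
    (((kS_cont hw σ).comp ((hc.comp continuous_fst).prodMk continuous_snd)).add (by fun_prop))
    hab hε
  have hc' := hW.continuous
  have h3 := kF_le hw σ c (f 0) (h1 0 (by simp))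
  have h4 := eks_avg hw hs hσ hf hW fun z hz => (h1 z hz).2.trans hb
  have h5 : ∀ z, ((c : ℂ) * (b - W z)).re = c * (b - (W z).re) := fun z => by simp
  have h6 := avg_re (W := fun z => (c : ℂ) * (b - W z)) (by fun_prop) 0 1
  simp only [h5] at h6
  have h7 : Real.circleAverage (fun z => kS w σ (f' z) (W z).re) 0 1 =
      Real.circleAverage (fun z => kS w σ (f z) (W z).re) 0 1 :=
    Real.circleAverage_congr_sphere fun z hz => congrArg (fun y => kS w σ y (W z).re) (he' z hz)
  have h8 : Real.circleAverage (fun z => kF w σ c a b (f' z)) 0 1 =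
      Real.circleAverage (fun z => kF w σ c a b (f z)) 0 1 :=
    Real.circleAverage_congr_sphere fun z hz => congrArg (kF w σ c a b) (he' z hz)
  have h9 := Real.circleAverage_fun_add (c := 0) (R := 1)
    (f₁ := fun z => kS w σ (f' z) (W z).re) (f₂ := fun z => c * (b - (W z).re))
    (((kS_cont hw σ).comp (hc.prodMk (continuous_re.comp hc'))).continuousOn.circleIntegrable')
    (Continuous.continuousOn (by fun_prop)).circleIntegrable'
  have h10 : Real.circleAverage (fun z => kS w σ (f' z) (W z).re + c * (b - (W z).re)) 0 1 ≤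
      Real.circleAverage (fun z => kF w σ c a b (f' z)) 0 1 + ε := h2
  linarith

end Vale.Agent.P272
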