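import Vale.Agent.P272.F.E.Defs
import Vale.Agent.P272.AtlB

/-! P272 F/E/Smb (task, block E of helper1). Helper names start with `esmb_`.
Plan. `sy_bd`: `taylor2` (file AtlB); the linear terms cancel for `σ = -1`. `levi_lo`: `(y, a) ↦ levi u y a` is continuous on `closedBall 0 4 ×ˢ sphere 0 1` (`ContDiffOn.continuousOn_fderiv_of_isOpen` twice), `IsCompact.exists_forall_le'`, real homogeneity of degree two (see `atlb_lo`). `smb`: maxima over the finitely many charts (`choose`, sums or `Finite.exists_le`); `|u x| ≤ C` from `A.cov` and `taylor2`. `grad_lip`: `atlb_lip` for `fderiv ℝ u`. -/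

open Metric Set Filter Topology Complex
open scoped ContDiff

noncomputable section

namespace Vale.Agent.P272

variable {n : ℕ} {X : Type} [TopologicalSpace X] {A : Atl n X}

theorem sy_bd {u : E n → ℝ} {U : Set (E n)} (hU : IsOpen U) (h4 : closedBall 0 4 ⊆ U)
    (hu : ContDiffOn ℝ ∞ u U) : ∃ C : ℝ, 1 ≤ C ∧ ∀ y h, ‖y‖ ≤ 3 → ‖h‖ ≤ 1 → |u y| ≤ C ∧
      |sy u 1 y h - u y| ≤ C * ‖h‖ ∧ |sy u (-1) y h - u y| ≤ C * ‖h‖ ^ 2 := by
  obtain ⟨C, C1, hC⟩ := taylor2 hU h4 hu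
  refine ⟨C, C1, fun y h hy hh => ?_⟩
  obtain ⟨a, -, b⟩ := hC y (by linarith)
  obtain ⟨b1, b2⟩ := b h ((norm_add_le _ _).trans (by linarith))
  obtain ⟨-, b3⟩ := b (-h) ((norm_add_le _ _).trans (by rw [norm_neg]; linarith))
  rw [norm_neg, map_neg, Real.norm_eq_abs, abs_le] at b3
  rw [Real.norm_eq_abs, abs_le] at b1 b2
  refine ⟨a, ?_, ?_⟩
  · rw [sy, one_smul, abs_le]
    constructor <;> linarith [b1.1, b1.2]
  · rw [sy, neg_one_smul, abs_le]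
    constructor <;> linarith [b2.1, b2.2, b3.1, b3.2]

theorem levi_lo {u : E n → ℝ} {U : Set (E n)} (hU : IsOpen U) (h4 : closedBall 0 4 ⊆ U)
    (hu : ContDiffOn ℝ ∞ u U) (pos : ∀ y ∈ U, ∀ a, a ≠ 0 → 0 < levi u y a) :
    ∃ m : ℝ, 0 < m ∧ ∀ y a, ‖y‖ ≤ 4 → m * ‖a‖ ^ 2 ≤ levi u y a := by
  have c2 : ContinuousOn (fun p : E n × E n => fderiv ℝ (fderiv ℝ u) p.1)
      (closedBall 0 4 ×ˢ sphere 0 1) :=
    ((hu.fderiv_of_isOpen (m := ∞) hU (by simp)).continuousOn_fderiv_of_isOpen hU (by simp)).comp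
      continuousOn_fst fun _ hp => h4 (mem_prod.1 hp).1
  have cI : ContinuousOn (fun p : E n × E n => I • p.2) (closedBall 0 4 ×ˢ sphere 0 1) :=
    continuousOn_snd.const_smul I
  have hc : ContinuousOn (fun p : E n × E n => levi u p.1 p.2) (closedBall 0 4 ×ˢ sphere 0 1) :=
    (((c2.clm_apply continuousOn_snd).clm_apply continuousOn_snd).add
      ((c2.clm_apply cI).clm_apply cI)).div_const 4
  obtain ⟨m, m0, h⟩ := ((isCompact_closedBall (0 : E n) 4).prod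
    (isCompact_sphere (0 : E n) 1)).exists_forall_le' hc (a := 0)
    fun p hp => pos _ (h4 hp.1) _ (ne_zero_of_mem_unit_sphere ⟨_, hp.2⟩)
  refine ⟨m, m0, fun y a hy => ?_⟩
  rcases eq_or_ne a 0 with rfl | ha
  · simp [levi]
  have hn := norm_ne_zero_iff.2 ha
  have h1 := h (y, ‖a‖⁻¹ • a) ⟨mem_closedBall_zero_iff.2 hy, by
    rw [mem_sphere_zero_iff_norm, norm_smul, norm_inv, norm_norm, inv_mul_cancel₀ hn]⟩
  have h2 : ∀ (t : ℝ) b, levi u y (t • b) = t ^ 2 * levi u y b := fun t b => by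
    simp only [levi, smul_comm I t, map_smul, ContinuousLinearMap.smul_apply, smul_eq_mul]
    ring
  have h3 := h2 ‖a‖ (‖a‖⁻¹ • a)
  rw [smul_inv_smul₀ hn] at h3
  rw [h3, mul_comm]
  exact mul_le_mul_of_nonneg_left h1 (sq_nonneg _)

theorem grad_lip {u : E n → ℝ} {U : Set (E n)} (hU : IsOpen U) (h4 : closedBall 0 4 ⊆ U)
    (hu : ContDiffOn ℝ ∞ u U) : ∃ C : ℝ, 0 ≤ C ∧ ∀ y ∈ ball (0 : E n) 1, ∀ y' ∈ ball (0 : E n) 1,
      ‖fderiv ℝ u y - fderiv ℝ u y'‖ ≤ C * ‖y - y'‖ := by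
  obtain ⟨C, C1, hC⟩ := atlb_lip hU h4 (hu.fderiv_of_isOpen (m := ∞) hU (by simp))
  have s : ball (0 : E n) 1 ⊆ closedBall 0 4 :=
    ball_subset_closedBall.trans (closedBall_subset_closedBall (by norm_num))
  exact ⟨C, by linarith, fun y hy y' hy' => (hC y' (s hy')).2.2 y (s hy)⟩

theorem Atl.smb (τ : A.Pot) (hτ : τ.Pos) {u : X → ℝ} (hu : A.Sm u) : ∃ C m : ℝ, 1 ≤ C ∧ 0 < m ∧
    (∀ x, |u x| ≤ C) ∧ (∀ j y a, ‖y‖ ≤ 4 → m * ‖a‖ ^ 2 ≤ levi (τ.u j) y a) ∧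
    ∀ j y h, ‖y‖ ≤ 3 → ‖h‖ ≤ 1 →
      (|sy (τ.u j) 1 y h - τ.u j y| ≤ C * ‖h‖ ∧ sy (A.loc u j) 1 y h ≤ A.loc u j y + C * ‖h‖) ∧
      |sy (τ.u j) (-1) y h - τ.u j y| ≤ C * ‖h‖ ^ 2 ∧
        sy (A.loc u j) (-1) y h ≤ A.loc u j y + C * ‖h‖ ^ 2 := by
  choose a a1 ha using fun j => sy_bd (A.e j).open_target (A.tgt j) (τ.sm j)
  choose b b1 hb using fun j => sy_bd (A.e j).open_target (A.tgt j) (hu j)
  choose m m0 hm using fun j => levi_lo (A.e j).open_target (A.tgt j) (τ.sm j) (hτ j)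
  obtain ⟨C, hC⟩ := Finite.exists_le fun j => max (a j) (b j)
  obtain ⟨D, hD⟩ := Finite.exists_le fun j => (m j)⁻¹
  have ca : ∀ j, a j ≤ max 1 C := fun j =>
    (le_max_left _ _).trans ((hC j).trans (le_max_right _ _))
  have cb : ∀ j, b j ≤ max 1 C := fun j =>
    (le_max_right _ _).trans ((hC j).trans (le_max_right _ _))
  have D0 : 0 < max 1 D := one_pos.trans_le (le_max_left _ _)
  refine ⟨max 1 C, (max 1 D)⁻¹, le_max_left _ _, inv_pos.2 D0, fun x => ?_, fun j y v hy =>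
    (mul_le_mul_of_nonneg_right (inv_le_of_inv_le₀ (m0 j) ((hD j).trans (le_max_right _ _)))
      (sq_nonneg _)).trans (hm j y v hy), fun j y h hy hh => ?_⟩
  · obtain ⟨j, h1, h2⟩ := A.cov x
    have := (hb j (A.e j x) 0 (by linarith) (by simp)).1
    rw [Atl.loc, (A.e j).left_inv h1] at this
    exact this.trans (cb j)
  · obtain ⟨-, p1, p2⟩ := ha j y h hy hh
    obtain ⟨-, q1, q2⟩ := hb j y h hy hh
    have r1 := mul_le_mul_of_nonneg_right (cb j) (norm_nonneg h)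
    have r2 := mul_le_mul_of_nonneg_right (cb j) (sq_nonneg ‖h‖)
    exact ⟨⟨p1.trans (mul_le_mul_of_nonneg_right (ca j) (norm_nonneg h)),
      by linarith [(abs_le.1 q1).2]⟩, p2.trans (mul_le_mul_of_nonneg_right (ca j) (sq_nonneg _)),
      by linarith [(abs_le.1 q2).2]⟩

end Vale.Agent.P272
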