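import Vale.Agent.P272.F.E.Fam
import Vale.Agent.P272.F.E.Glue
import Vale.Agent.P272.F.E.Smb
import Vale.Agent.P272.F.E.Quad

/-! P272 F/E/Key (task, block E of helper1). Helper names start with `ekey_`.
Plan. `C, m` from `smb`, `l = D / m ≤ 1 / 2`, `K = 5 + (2 C + 3) / m`. `v j x = (1 - l) (g j y - τ.u j y - D ‖y‖^2) - l C - D`, `y = e j x`; `glue` with `Cl j = {x ∈ source, ‖e j x - 0‖ ≤ 2}` (`isCompact_in`), `Op j` the open version; at `‖e j x‖ = 2` compare with `k` from `A.cov`: `v j - v k ≤ (1 - l) (D - 4 D + D) < 0`. `v j ≤ u`. `Psh τ (v j) x` for `x ∈ Op j` by `psh_of_chart`: near `e j x`, `τ.u j + loc (v j) j = (1 - l) g j + (l τ.u j + q)`, `q z = - l C - D - (1 - l) D ‖z - 0‖^2` (`quad_levi` with `D₁ = 0`, `D₂ = 0`), `SubM.wsub`, `WSub.mul`, `WSub.add_twd`, `TwD.add`, `TwD.const_mul`, `WSub.of_le`. `Psh.of_le` gives `Fam τ u G`, so `v j ≤ G ≤ envF`; use `l (g j - τ.u j) ≤ l (C + 1)`. -/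

open Metric Set Filter Topology Complex
open scoped ContDiff

noncomputable section

namespace Vale.Agent.P272

variable {n : ℕ} {X : Type} [TopologicalSpace X] [T2Space X] {A : Atl n X}

/-- The local competitor. -/
def ekey_v (τ : A.Pot) (j : Fin A.N) (g : E n → ℝ) (l s c : ℝ) (x : X) : ℝ :=
  (1 - l) * (g (A.e j x) - τ.u j (A.e j x)) - s * ‖A.e j x‖ ^ 2 + c

omit [T2Space X] in
theorem ekey_cont (τ : A.Pot) (j : Fin A.N) {g : E n → ℝ} (hg : Continuous g) (l s c : ℝ) {x : X}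
    (hx : x ∈ (A.e j).source) : ContinuousAt (ekey_v τ j g l s c) x := by
  have h1 : ContinuousAt (A.e j) x := (A.e j).continuousAt hx
  have h2 : ContinuousAt (τ.u j) (A.e j x) :=
    (τ.sm j).continuousOn.continuousAt ((A.e j).open_target.mem_nhds ((A.e j).map_source hx))
  exact ((continuousAt_const.mul ((hg.continuousAt.comp h1).sub (h2.comp h1))).sub
    (continuousAt_const.mul (h1.norm.pow 2))).add continuousAt_const

omit [T2Space X] in
theorem ekey_ctn (τ : A.Pot) (j : Fin A.N) {g : E n → ℝ} (hg : Continuous g) (l s c : ℝ) {x : X}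
    (hx : x ∈ (A.e j).source) : CtN (ekey_v τ j g l s c) x :=
  Filter.Eventually.mono ((A.e j).open_source.mem_nhds hx) fun _ hz => ekey_cont τ j hg l s c hz

omit [T2Space X] in
theorem ekey_psh (τ : A.Pot) (j : Fin A.N) {g : E n → ℝ} (hg : Continuous g)
    (hs : SubM g (ball 0 3)) {l s : ℝ} (c : ℝ) (hl : l ≤ 1) {x : X} (hx : x ∈ (A.e j).source)
    (h2 : ‖A.e j x‖ < 2) (hlev : ∀ a, s * ‖a‖ ^ 2 ≤ l * levi (τ.u j) (A.e j x) a) :
    Atl.Psh τ (ekey_v τ j g l s c) x := by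
  refine Atl.psh_of_chart τ (ekey_ctn τ j hg l s c hx) hx ?_
  have ht : (A.e j).target ∈ 𝓝 (A.e j x) := (A.e j).open_target.mem_nhds ((A.e j).map_source hx)
  obtain ⟨q1, q2⟩ := quad_levi c s (0 : E n) 0 0
  obtain ⟨t1, t2⟩ := (twd_of_smooth ((τ.sm j).contDiffAt ht)).const_mul l
  obtain ⟨t3, t4⟩ := t1.add (twd_of_smooth (y := A.e j x) q1.contDiffAt)
  have w1 : WSub (fun z => (1 - l) * g z) (A.e j x) :=
    (hs.wsub (isOpen_ball.mem_nhds (mem_ball_zero_iff.2 (by linarith)))).mul (by linarith)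
  have c1 : CtN (fun z => (1 - l) * g z) (A.e j x) :=
    Eventually.of_forall fun z => (continuous_const.mul hg).continuousAt
  have w2 := w1.add_twd c1 t3 fun a => by
    rw [t4, t2, q2]
    have := hlev a
    simp only [zero_apply]
    linarith
  have c2 : CtN (fun z => (1 - l) * g z + (l * τ.u j z + (c + (0 : E n →L[ℝ] ℝ) (z - 0) +
      (0 : E n →L[ℝ] E n →L[ℝ] ℝ) (z - 0) (z - 0) / 2 - s * ‖z - 0‖ ^ 2))) (A.e j x) :=
    (Filter.Eventually.and c1 t3.ctn).mono fun z hz => hz.1.add hz.2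
  have he : (fun z => (1 - l) * g z + (l * τ.u j z + (c + (0 : E n →L[ℝ] ℝ) (z - 0) +
      (0 : E n →L[ℝ] E n →L[ℝ] ℝ) (z - 0) (z - 0) / 2 - s * ‖z - 0‖ ^ 2))) =ᶠ[𝓝 (A.e j x)]
      fun y => τ.u j y + A.loc (ekey_v τ j g l s c) j y := by
    filter_upwards [ht] with z hz
    simp only [Atl.loc, ekey_v, (A.e j).right_inv hz, zero_apply, sub_zero]
    ring
  refine w2.of_le c2 ?_ he.self_of_nhds.symm he.le
  exact (Filter.Eventually.and c2 he.eventually_nhds).mono fun z hz => hz.1.congr hz.2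

theorem Atl.key (τ : A.Pot) (hτ : τ.Pos) {u : X → ℝ} (hu : A.Sm u) : ∃ K : ℝ, 1 ≤ K ∧
    ∀ (g : Fin A.N → E n → ℝ) (D : ℝ), 0 < D → K * D ≤ 1 →
      (∀ j, Continuous (g j) ∧ SubM (g j) (ball 0 3)) →
      (∀ j k x, A.In j 2 x → A.In k 1 x →
        g j (A.e j x) - τ.u j (A.e j x) ≤ g k (A.e k x) - τ.u k (A.e k x) + D) →
      (∀ j y, ‖y‖ ≤ 2 → g j y - τ.u j y ≤ A.loc u j y + D) →
      ∀ j y, ‖y‖ ≤ 2 → g j y - τ.u j y ≤ A.loc (Atl.envF τ u) j y + K * D := by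
  obtain ⟨C, m, hC, hm, hCu, hlev, -⟩ := Atl.smb τ hτ hu
  have hK : 0 ≤ (2 * C + 3) / m := by positivity
  refine ⟨5 + (2 * C + 3) / m, by linarith, fun g D hD hKD hg hcmp hgu j y hy => ?_⟩
  obtain ⟨l, hl0, hlm, hKl⟩ : ∃ l : ℝ, 0 < l ∧ l * m = D ∧
      (5 + (2 * C + 3) / m) * D = 5 * D + (2 * C + 3) * l :=
    ⟨D / m, by positivity, by field_simp, by field_simp⟩
  rw [hKl] at hKD ⊢
  have hCl : l ≤ C * l := le_mul_of_one_le_left hl0.le hC
  have hl1 : 0 < 1 - l := by linarith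
  set v : Fin A.N → X → ℝ := fun i => ekey_v τ i (g i) l ((1 - l) * D) (-(l * C) - D) with hv
  have hvu : ∀ i x, x ∈ (A.e i).source → ‖A.e i x‖ ≤ 2 → v i x ≤ u x := by
    intro i x hx h2
    have a1 := hgu i _ h2
    rw [Atl.loc, (A.e i).left_inv hx] at a1
    have a2 := mul_le_mul_of_nonneg_left a1 hl1.le
    have a3 : 0 ≤ (1 - l) * D * ‖A.e i x‖ ^ 2 := by positivity
    have a4 := mul_le_mul_of_nonneg_left (abs_le.1 (hCu x)).1 hl0.le
    have a5 := mul_pos hl0 hD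
    simp only [hv, ekey_v]
    linarith
  obtain ⟨G, hG, hvG, hGv⟩ := glue
    (Cl := fun i => {x | x ∈ (A.e i).source ∧ ‖A.e i x - 0‖ ≤ 2})
    (Op := fun i => {x | x ∈ (A.e i).source ∧ ‖A.e i x - 0‖ < 2}) (v := v)
    (fun i => (Atl.isCompact_in i 0 (by norm_num)).isClosed) (fun i => Atl.isOpen_in i 0 2)
    (fun i x hx => ⟨hx.1, hx.2.le⟩) (fun i x hx => ekey_cont τ i (hg i).1 _ _ _ hx.1)
    (fun x => by
      obtain ⟨k, h1, h2⟩ := A.cov x
      exact ⟨k, h1, by rw [sub_zero]; linarith⟩)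
    (fun x i hx hx' => by
      obtain ⟨k, h1, h2⟩ := A.cov x
      refine ⟨k, ⟨h1, by rw [sub_zero]; linarith⟩, ?_⟩
      have b1 : ‖A.e i x‖ ≤ 2 := by simpa using hx.2
      have b2 : 2 ≤ ‖A.e i x‖ := not_lt.1 fun h => hx' ⟨hx.1, by rwa [sub_zero]⟩
      have b3 : ‖A.e i x‖ ^ 2 = 4 := by
        rw [le_antisymm b1 b2]
        norm_num
      have b4 : ‖A.e k x‖ ^ 2 ≤ 1 := pow_le_one₀ (norm_nonneg _) h2.le
      have a1 := mul_le_mul_of_nonneg_left (hcmp i k x ⟨hx.1, b1⟩ ⟨h1, h2.le⟩) hl1.le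
      have a2 := mul_pos hl1 hD
      have a3 := mul_le_mul_of_nonneg_left b4 a2.le
      simp only [hv, ekey_v, b3]
      linarith)
  have hfam : Atl.Fam τ u G := by
    refine ⟨hG, fun x => ?_, fun x => ?_⟩
    · obtain ⟨i, hi, e⟩ := hGv x
      rw [e]
      exact hvu i x hi.1 (by simpa using hi.2.le)
    · obtain ⟨i, hi, e⟩ := hGv x
      have b1 : ‖A.e i x‖ < 2 := by simpa using hi.2
      have h1 : Atl.Psh τ (v i) x := ekey_psh τ i (hg i).1 (hg i).2 _ (by linarith) hi.1 b1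
        fun a => by
          have a1 := mul_le_mul_of_nonneg_left (hlev i (A.e i x) a (by linarith)) hl0.le
          have a2 : 0 ≤ l * D * ‖a‖ ^ 2 := by positivity
          rw [← mul_assoc, hlm] at a1
          linarith
      refine h1.of_le (ekey_ctn τ i (hg i).1 _ _ _ hi.1)
        (Eventually.of_forall fun _ => hG.continuousAt) e ?_
      exact Filter.Eventually.mono ((Atl.isOpen_in i 0 2).mem_nhds hi)
        fun z hz => hvG i z ⟨hz.1, hz.2.le⟩
  have hyt : y ∈ (A.e j).target := A.tgt j (mem_closedBall_zero_iff.2 (by linarith))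
  have h1 := (hvG j ((A.e j).symm y) ⟨(A.e j).map_target hyt, by
    rwa [(A.e j).right_inv hyt, sub_zero]⟩).trans (hfam.le_env _)
  have h2 : g j y - τ.u j y ≤ C + D :=
    (hgu j y hy).trans (add_le_add (abs_le.1 (hCu _)).2 le_rfl)
  have h3 := mul_le_mul_of_nonneg_left h2 hl0.le
  have h4 : ‖y‖ ^ 2 ≤ 4 := by nlinarith [norm_nonneg y]
  have h5 := mul_le_mul_of_nonneg_left h4 (mul_pos hl1 hD).le
  have h6 := mul_pos hl0 hD
  simp only [hv, ekey_v, (A.e j).right_inv hyt] at h1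
  rw [Atl.loc]
  linarith

end Vale.Agent.P272
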