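import Vale.Agent.P272.F.E.Glue
import Vale.Agent.P272.Hol4

/-! P272 F/E/Trn (task, block E of helper1). Helper names start with `etrn_`.
Plan. For each pair `j, k` the compact set `K = e j '' {In j 2 ∧ In k 2}` (`isCompact_in`, closed in a T2 space) lies in the open set `O = target j ∩ (e j).symm ⁻¹' {x ∈ source k, ‖e k x‖ < 4}`; `IsCompact.exists_cthickening_subset_open` gives `ρ`; take the minimum over the pairs (or `∀ᶠ ρ in 𝓝[>] 0`, `eventually_all`). For `y ∈ K`, `h ≠ 0`, `‖h‖ < ρ` apply `hol_taylor` to `s ↦ T (y + s • (‖h‖⁻¹ • h))`, `T = e k ∘ (e j).symm`, on `ball 0 ρ` with `B = 6`, at `s = ‖h‖`; its derivative at `0` is `tr k j x (‖h‖⁻¹ • h)`. `d = min 1 (ρ / 2)`, `L = 1 + 6 / ρ + 12 / ρ^2`. -/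

open Metric Set Filter Topology Complex
open scoped ContDiff

noncomputable section

namespace Vale.Agent.P272

variable {n : ℕ} {X : Type} [TopologicalSpace X] [T2Space X] {A : Atl n X}

theorem etrn_one {T : E n → E n} {y : E n} {ρ : ℝ} (hρ : 0 < ρ)
    (hT : ∀ h, ‖h‖ ≤ ρ → DifferentiableAt ℂ T (y + h) ∧ ‖T (y + h) - T y‖ ≤ 6) {h : E n}
    (hh : ‖h‖ < ρ) : ‖fderiv ℂ T y h‖ ≤ 6 / ρ * ‖h‖ ∧ ‖T (y + h) - T y‖ ≤ 6 / ρ * ‖h‖ ∧
      ‖T (y + h) - T y - fderiv ℂ T y h‖ ≤ 12 / ρ ^ 2 * ‖h‖ ^ 2 := by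
  rcases eq_or_ne h 0 with rfl | h0
  · simp
  have hn : 0 < ‖h‖ := norm_pos_iff.2 h0
  have hc : ((‖h‖ : ℝ) : ℂ) ≠ 0 := Complex.ofReal_ne_zero.2 hn.ne'
  obtain ⟨u, hu, e⟩ : ∃ u : E n, ‖u‖ = 1 ∧ ((‖h‖ : ℝ) : ℂ) • u = h := by
    refine ⟨((‖h‖ : ℝ) : ℂ)⁻¹ • h, ?_, ?_⟩
    · rw [norm_smul, norm_inv, Complex.norm_real, norm_norm, inv_mul_cancel₀ hn.ne']
    · rw [smul_smul, mul_inv_cancel₀ hc, one_smul]
  have hl : ∀ s : ℂ, HasDerivAt (fun s : ℂ => y + s • u) u s := fun s => by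
    simpa using ((hasDerivAt_id s).smul_const u).const_add y
  have hs : ∀ s : ℂ, ‖s‖ < ρ → ‖s • u‖ ≤ ρ := fun s hs => by
    rw [norm_smul, hu, mul_one]
    exact hs.le
  have h1 : DifferentiableOn ℂ (fun s : ℂ => T (y + s • u)) (ball 0 ρ) := fun s hs' =>
    (DifferentiableAt.comp (g := T) s (hT _ (hs s (mem_ball_zero_iff.1 hs'))).1
      (hl s).differentiableAt).differentiableWithinAt
  have h2 : deriv (fun s : ℂ => T (y + s • u)) 0 = fderiv ℂ T y u := by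
    have h3 := (hT 0 (by simpa using hρ.le)).1.hasFDerivAt
    rw [add_zero] at h3
    exact (HasFDerivAt.comp_hasDerivAt_of_eq (0 : ℂ) h3 (hl 0) (by simp)).deriv
  have hn' : ‖((‖h‖ : ℝ) : ℂ)‖ = ‖h‖ := by rw [Complex.norm_real, norm_norm]
  obtain ⟨a1, a2, a3⟩ := hol_taylor (B := 6) h1 (fun s hs' => by
    simpa using (hT _ (hs s hs')).2) (s := ((‖h‖ : ℝ) : ℂ)) (by rw [hn']; exact hh)
  rw [h2] at a1 a3
  have e2 : ((‖h‖ : ℝ) : ℂ) • fderiv ℂ T y u = fderiv ℂ T y h := by rw [← map_smul, e]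
  simp only [zero_smul, add_zero, e, hn'] at a2 a3
  rw [e2] at a3
  refine ⟨?_, a2, a3.trans_eq (by ring)⟩
  rw [← e2, norm_smul, hn', mul_comm]
  exact mul_le_mul_of_nonneg_right a1 hn.le

theorem etrn_rho (A : Atl n X) (j k : Fin A.N) : ∀ᶠ ρ in 𝓝[>] (0 : ℝ), ∀ x, A.In j 2 x →
    A.In k 2 x → ∀ h, ‖h‖ ≤ ρ → A.e j x + h ∈ (A.e j).target ∧
      (A.e j).symm (A.e j x + h) ∈ (A.e k).source ∧
      ‖A.e k ((A.e j).symm (A.e j x + h))‖ < 4 := by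
  have c1 := Atl.isCompact_in (A := A) j 0 (r := 2) (by norm_num)
  have c2 := Atl.isCompact_in (A := A) k 0 (r := 2) (by norm_num)
  have c3 := (c1.inter_right c2.isClosed).image_of_continuousOn
    ((A.e j).continuousOn.mono fun x hx => hx.1.1)
  have o1 := (A.e j).isOpen_inter_preimage_symm (Atl.isOpen_in (A := A) k 0 4)
  obtain ⟨δ, hδ, hs⟩ := c3.exists_cthickening_subset_open o1 (by
    rintro _ ⟨x, ⟨h1, h2⟩, rfl⟩
    refine ⟨(A.e j).map_source h1.1, ?_⟩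
    rw [mem_preimage, (A.e j).left_inv h1.1]
    exact ⟨h2.1, h2.2.trans_lt (by norm_num)⟩)
  filter_upwards [Ioo_mem_nhdsGT hδ] with ρ hρ x hj hk h hh
  have h1 := hs (mem_cthickening_of_dist_le (A.e j x + h) (A.e j x) δ _
    ⟨x, ⟨⟨hj.1, by simpa using hj.2⟩, ⟨hk.1, by simpa using hk.2⟩⟩, rfl⟩
    (by rw [dist_self_add_left]; exact hh.trans hρ.2.le))
  exact ⟨h1.1, h1.2.1, by simpa using h1.2.2⟩

theorem Atl.trn (A : Atl n X) : ∃ d L : ℝ, 0 < d ∧ d ≤ 1 ∧ 1 ≤ L ∧ ∀ j k x, A.In j 2 x →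
    A.In k 2 x → ∀ h, ‖h‖ ≤ d → ‖A.tr k j x h‖ ≤ L * ‖h‖ ∧
      (A.e j).symm (A.e j x + h) ∈ (A.e k).source ∧
      ‖A.e k ((A.e j).symm (A.e j x + h)) - A.e k x‖ ≤ L * ‖h‖ ∧
      ‖A.e k ((A.e j).symm (A.e j x + h)) - A.e k x - A.tr k j x h‖ ≤ L * ‖h‖ ^ 2 := by
  have h1 := eventually_all.2 fun j => eventually_all.2 fun k => etrn_rho A j k
  obtain ⟨ρ, h2, hρ⟩ := (h1.and self_mem_nhdsWithin).exists
  have hρ : 0 < ρ := hρ
  have p1 : 0 < 6 / ρ := by positivity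
  have p2 : 0 < 12 / ρ ^ 2 := by positivity
  refine ⟨min 1 (ρ / 2), 1 + 6 / ρ + 12 / ρ ^ 2, by positivity, min_le_left _ _, by linarith,
    fun j k x hj hk h hh => ?_⟩
  have hx : (A.e j).symm (A.e j x) = x := (A.e j).left_inv hj.1
  have hh' : ‖h‖ < ρ := (hh.trans (min_le_right _ _)).trans_lt (half_lt_self hρ)
  obtain ⟨a1, a2, a3⟩ := etrn_one (T := A.e k ∘ (A.e j).symm) (y := A.e j x) hρ (fun h hh => by
    obtain ⟨b1, b2, b3⟩ := h2 j k x hj hk h hh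
    refine ⟨?_, ?_⟩
    · have := A.hol k j _ b2 ((A.e j).map_target b1)
      rwa [(A.e j).right_inv b1] at this
    · rw [Function.comp_apply, Function.comp_apply, hx]
      have := norm_sub_le (A.e k ((A.e j).symm (A.e j x + h))) (A.e k x)
      linarith [hk.2]) hh'
  rw [Function.comp_apply, Function.comp_apply, hx] at a2 a3
  exact ⟨a1.trans (mul_le_mul_of_nonneg_right (by linarith) (norm_nonneg _)),
    (h2 j k x hj hk h hh'.le).2.1,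
    a2.trans (mul_le_mul_of_nonneg_right (by linarith) (norm_nonneg _)),
    a3.trans (mul_le_mul_of_nonneg_right (by linarith) (sq_nonneg _))⟩

end Vale.Agent.P272
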