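import Vale.Agent.P272.F.E.Step
import Vale.Agent.P272.F.E.Trn

/-! P272 F/E/Lip (task, block E of helper1). Helper names start with `elip_`.
Plan. `env_lip`: `d₀, L` from `trn`, `C` from `smb`, `K, κ` from `step`. For `h ≠ 0` with `‖h‖ ≤ κ min d₀ (1 / (K C))` take `σ = 1`, `d = ‖h‖ / κ`, `c = C d`. For `p₀` in the family let `p = max p₀ p₁`, `p₁` from `exists_fam_gt` at `(e j).symm y` (`fam_const` with `M = - C` gives `ne`). Charts: `h' = e k ((e j).symm (e j x + h)) - e k x`, equality by `left_inv` (`sy w 1 y h = w (y + h)`). `env_le` gives `Λ = K C / κ`. `env_fam`: continuity at `x` in the chart of `A.cov` (`‖e j x‖ < 1`): the two one-sided bounds give `|loc env (y + h) - loc env y| ≤ Λ ‖h‖`; `env = loc env j ∘ e j` near `x`; `fam_env`. -/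

open Metric Set Filter Topology Complex
open scoped ContDiff

noncomputable section

namespace Vale.Agent.P272

variable {n : ℕ} {X : Type} [TopologicalSpace X] [T2Space X] {A : Atl n X}

theorem elip_sy (w : E n → ℝ) (y h : E n) : sy w 1 y h = w (y + h) := by
  rw [sy, one_smul]
  ring

theorem elip_ne (τ : A.Pot) (hτ : τ.Pos) {u : X → ℝ} (hu : A.Sm u) : ∃ p, Atl.Fam τ u p := by
  obtain ⟨C, m, -, -, hC, -⟩ := Atl.smb τ hτ hu
  exact ⟨_, Atl.fam_const hτ (M := -C) fun x => (abs_le.mp (hC x)).1⟩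

theorem Atl.env_lip (τ : A.Pot) (hτ : τ.Pos) {u : X → ℝ} (hu : A.Sm u) : ∃ Λ d : ℝ, 1 ≤ Λ ∧
    0 < d ∧ ∀ j y h, ‖y‖ ≤ 2 → ‖h‖ ≤ d →
      A.loc (Atl.envF τ u) j (y + h) ≤ A.loc (Atl.envF τ u) j y + Λ * ‖h‖ := by
  obtain ⟨d₀, L, hd₀, hd1, hL, htr⟩ := A.trn
  obtain ⟨C, m, hC, -, -, -, hsm⟩ := Atl.smb τ hτ hu
  obtain ⟨K, κ, hK, hκ, hκ1, hst⟩ := Atl.step τ hτ hu hL
  have ne := elip_ne τ hτ hu
  have hKC : 1 ≤ K * C := one_le_mul_of_one_le_of_one_le hK hC
  have hKC0 : 0 < K * C := by linarith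
  refine ⟨K * C / κ, κ * min d₀ (1 / (K * C)), (one_le_div hκ).mpr (hκ1.trans hKC),
    mul_pos hκ (lt_min hd₀ (by positivity)), fun j y h hy hh => ?_⟩
  rcases eq_or_ne h 0 with rfl | h0
  · simp
  have hn : 0 < ‖h‖ := norm_pos_iff.mpr h0
  obtain ⟨δ, hδ⟩ : ∃ δ, δ = ‖h‖ / κ := ⟨_, rfl⟩
  have hδ0 : 0 < δ := by rw [hδ]; positivity
  have hκδ : κ * δ = ‖h‖ := by rw [hδ]; field_simp
  have hδm : δ ≤ min d₀ (1 / (K * C)) := by
    rw [← hκδ] at hh
    exact le_of_mul_le_mul_left hh hκ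
  have hδd : δ ≤ d₀ := hδm.trans (min_le_left _ _)
  have hδK : K * (C * δ) ≤ 1 := by
    have := (le_div_iff₀ hKC0).mp (hδm.trans (min_le_right _ _))
    linarith
  have hc : 0 < C * δ := mul_pos (by linarith) hδ0
  obtain ⟨p₁, hp₁, hgt⟩ := Atl.exists_fam_gt ne (x := (A.e j).symm y)
    (c := Atl.envF τ u ((A.e j).symm y) - C * δ) (by linarith)
  refine Atl.env_le ne fun p₀ hp₀ => ?_
  have key := hst 1 (C * δ) δ _ (by simp) hc hδK hδ0 (hδd.trans hd1) (hp₀.max hp₁)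
    (fun j k x g hj hk hg => by
      have hg' : ‖g‖ ≤ d₀ := ((le_mul_of_one_le_left (norm_nonneg _) hL).trans hg).trans hδd
      obtain ⟨-, hs, hb, -⟩ := htr j k x hj ⟨hk.1, hk.2.trans (by norm_num)⟩ g hg'
      refine ⟨_, hb, ?_⟩
      rw [elip_sy, elip_sy, add_sub_cancel]
      simp only [Atl.loc]
      rw [(A.e k).left_inv hs]
      linarith)
    (fun j y g hy hg => by
      obtain ⟨⟨h1, h2⟩, -⟩ := hsm j y g (hy.trans (by norm_num)) (hg.trans (hδd.trans hd1))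
      have h3 : C * ‖g‖ ≤ C * δ := mul_le_mul_of_nonneg_left hg (by linarith)
      exact ⟨h1.trans h3, by linarith⟩)
    j y h hy (hgt.le.trans (le_max_right _ _)) hκδ.ge
  rw [elip_sy] at key
  have e : K * (C * δ) = K * C / κ * ‖h‖ := by rw [hδ]; ring
  rw [← e]
  exact (le_max_left _ _).trans key

theorem Atl.env_fam (τ : A.Pot) (hτ : τ.Pos) {u : X → ℝ} (hu : A.Sm u) :
    Atl.Fam τ u (Atl.envF τ u) := by
  obtain ⟨Λ, d, -, hd, H⟩ := Atl.env_lip τ hτ hu
  refine Atl.fam_env (elip_ne τ hτ hu) (continuous_iff_continuousAt.mpr fun x => ?_)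
  obtain ⟨j, hj, hx⟩ := A.cov x
  have h1 : ContinuousAt (A.loc (Atl.envF τ u) j) (A.e j x) := by
    refine continuousAt_of_locally_lipschitz (lt_min hd one_pos) Λ fun y hy => ?_
    rw [dist_eq_norm] at hy
    have hy1 : ‖y - A.e j x‖ ≤ d := hy.le.trans (min_le_left _ _)
    have hy2 : ‖y‖ ≤ 2 := by
      have h2 := norm_add_le (y - A.e j x) (A.e j x)
      rw [sub_add_cancel] at h2
      have h3 := hy.le.trans (min_le_right _ _)
      linarith
    have a1 := H j (A.e j x) (y - A.e j x) (by linarith) hy1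
    have a2 := H j y (A.e j x - y) hy2 (by rwa [norm_sub_rev])
    rw [add_sub_cancel] at a1 a2
    rw [norm_sub_rev] at a2
    rw [Real.dist_eq, dist_eq_norm, abs_le]
    constructor <;> linarith
  refine (h1.comp ((A.e j).continuousAt hj)).congr ?_
  filter_upwards [(A.e j).open_source.mem_nhds hj] with z hz
  simp only [Function.comp, Atl.loc]
  rw [(A.e j).left_inv hz]

end Vale.Agent.P272
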