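import Vale.Agent.P272.F.E.Harm

/-! P272 F/E/Loc (task, block E of helper1). Helper names start with `eloc_`.
Plan. `subm_of_wsub`: `g = w ∘ f` is continuous on the closed disc. Take `W` from `harm_approx` with error `ε`; let `z₀` maximise `g z - re (W z) + ε ‖z‖^2` on the closed disc. If `‖z₀‖ < 1` use `WSub` at `f z₀` for the disc `z ↦ f (z₀ + z)` with `δ = ε / 2` and a small `r`: on the circle `g (z₀ + z) ≤ max + re (W (z₀ + z) - ε * 2 * conj z₀ * z) - ε (‖z₀‖^2 + r^2)`, average with `avg_re`: contradiction. So `‖z₀‖ = 1`, `g 0 ≤ re (W 0) + 2 ε ≤ average g + 3 ε`. `SubM.wsub`: for small `r > 0` apply `SubM` to `z ↦ f (r z)` (`circleAverage_eq_circleAverage_zero_one`). -/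

open Metric Set Filter Topology Complex
open scoped ContDiff

noncomputable section

namespace Vale.Agent.P272

variable {n : ℕ}

theorem eloc_int {V : ℂ → ℂ} (hV : Differentiable ℂ V) (r : ℝ) :
    CircleIntegrable (fun z => (V z).re) 0 r :=
  ContinuousOn.circleIntegrable' (continuous_re.comp hV.continuous).continuousOn

theorem eloc_le {g : ℂ → ℝ} {r : ℝ} (hr : 0 < r) (hg : ContinuousOn g (sphere 0 r)) {V : ℂ → ℂ}
    (hV : Differentiable ℂ V) (h : ∀ z, ‖z‖ = r → g z ≤ (V z).re) :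
    Real.circleAverage g 0 r ≤ (V 0).re := by
  rw [← avg_re hV 0 r]
  refine Real.circleAverage_mono (hg.circleIntegrable hr.le) (eloc_int hV r) fun z hz => h z ?_
  rw [abs_of_pos hr] at hz
  exact mem_sphere_zero_iff_norm.1 hz

theorem eloc_ge {g : ℂ → ℝ} {r : ℝ} (hr : 0 < r) (hg : ContinuousOn g (sphere 0 r)) {V : ℂ → ℂ}
    (hV : Differentiable ℂ V) (h : ∀ z, ‖z‖ = r → (V z).re ≤ g z) :
    (V 0).re ≤ Real.circleAverage g 0 r := by
  rw [← avg_re hV 0 r]
  refine Real.circleAverage_mono (eloc_int hV r) (hg.circleIntegrable hr.le) fun z hz => h z ?_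
  rw [abs_of_pos hr] at hz
  exact mem_sphere_zero_iff_norm.1 hz

theorem eloc_sq (z a : ℂ) :
    ‖z + a‖ ^ 2 = ‖z‖ ^ 2 + ‖a‖ ^ 2 + 2 * (z * (starRingEnd ℂ) a).re := by
  rw [Complex.sq_norm, Complex.sq_norm, Complex.sq_norm, Complex.normSq_add]

theorem eloc_in {g : ℂ → ℝ} (hg : ContinuousOn g (closedBall 0 1)) {W : ℂ → ℂ}
    (hW : Differentiable ℂ W) {ε : ℝ} (hε : 0 < ε) {a : ℂ} (ha : ‖a‖ < 1)
    (hmax : ∀ z, ‖z‖ ≤ 1 → g z - (W z).re + ε * ‖z‖ ^ 2 ≤ g a - (W a).re + ε * ‖a‖ ^ 2)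
    (hfr : ∃ᶠ r in 𝓝[>] (0 : ℝ),
      g a ≤ Real.circleAverage (fun z => g (z + a)) 0 r + ε / 2 * r ^ 2) : False := by
  have hev : ∀ᶠ r in 𝓝[>] (0 : ℝ), r ∈ Ioo 0 (1 - ‖a‖) := Ioo_mem_nhdsGT (by linarith)
  obtain ⟨r, h1, hr0, hr1⟩ := (hfr.and_eventually hev).exists
  have hin : ∀ z : ℂ, ‖z‖ = r → ‖z + a‖ ≤ 1 := fun z hz => by
    have := norm_add_le z a
    linarith
  have hc : ContinuousOn (fun z => g (z + a)) (sphere 0 r) :=
    hg.comp (f := fun z : ℂ => z + a) (continuous_id.add continuous_const).continuousOn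
      fun z hz => mem_closedBall_zero_iff.2 (hin z (mem_sphere_zero_iff_norm.1 hz))
  have hV : Differentiable ℂ fun z : ℂ => ((g a - (W a).re - ε * r ^ 2 : ℝ) : ℂ) + W (z + a) -
      ((2 * ε : ℝ) : ℂ) * (z * (starRingEnd ℂ) a) :=
    ((differentiable_const _).add (hW.comp (differentiable_id.add_const a))).sub
      ((differentiable_id.mul_const _).const_mul _)
  have h2 := eloc_le hr0 hc hV fun z hz => by
    have h3 := hmax _ (hin z hz)
    rw [eloc_sq, hz] at h3
    rw [Complex.sub_re, Complex.add_re, Complex.ofReal_re, Complex.re_ofReal_mul]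
    linarith
  rw [Complex.sub_re, Complex.add_re, Complex.ofReal_re, Complex.re_ofReal_mul, zero_add,
    zero_mul, Complex.zero_re] at h2
  have h4 : 0 < ε * r ^ 2 := by positivity
  linarith

theorem subm_of_wsub {w : E n → ℝ} {U : Set (E n)} (hc : ContinuousOn w U)
    (h : ∀ y ∈ U, WSub w y) : SubM w U := by
  intro f hf
  have hfc : ContinuousOn f (closedBall 0 1) := fun z hz =>
    (hf z (mem_closedBall_zero_iff.1 hz)).1.continuousAt.continuousWithinAt
  have hg : ContinuousOn (fun z => w (f z)) (closedBall 0 1) :=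
    hc.comp (f := f) hfc fun z hz => (hf z (mem_closedBall_zero_iff.1 hz)).2
  have hg1 : ContinuousOn (fun z => w (f z)) (sphere 0 1) := hg.mono sphere_subset_closedBall
  refine le_of_forall_pos_le_add fun e he => ?_
  have hε : 0 < e / 3 := by linarith
  obtain ⟨W, hW, hWg⟩ := harm_approx hg1 hε
  have hφ : ContinuousOn (fun z => w (f z) - (W z).re + e / 3 * ‖z‖ ^ 2) (closedBall 0 1) :=
    (hg.sub (continuous_re.comp hW.continuous).continuousOn).add
      (continuous_const.mul (continuous_norm.pow 2)).continuousOn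
  obtain ⟨a, ha, hmax⟩ := (isCompact_closedBall (0 : ℂ) 1).exists_isMaxOn
    ⟨0, mem_closedBall_self zero_le_one⟩ hφ
  have ha1 : ‖a‖ ≤ 1 := mem_closedBall_zero_iff.1 ha
  have hmax' : ∀ z : ℂ, ‖z‖ ≤ 1 → w (f z) - (W z).re + e / 3 * ‖z‖ ^ 2 ≤
      w (f a) - (W a).re + e / 3 * ‖a‖ ^ 2 := fun z hz => hmax (mem_closedBall_zero_iff.2 hz)
  rcases ha1.lt_or_eq with hlt | heq
  · exfalso
    refine eloc_in hg hW hε hlt hmax' ?_
    refine h (f a) (hf a ha1).2 (fun z => f (z + a)) ?_ (by rw [zero_add]) _ (by linarith)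
    have hb : ∀ᶠ z in 𝓝 (0 : ℂ), z ∈ ball (0 : ℂ) (1 - ‖a‖) := ball_mem_nhds _ (by linarith)
    filter_upwards [hb] with z hz
    have h1 := mem_ball_zero_iff.1 hz
    have h2 := norm_add_le z a
    exact DifferentiableAt.comp (g := f) (f := fun z : ℂ => z + a) z (hf _ (by linarith)).1
      (differentiableAt_id.add_const a)
  · have h1 := hmax' 0 (by rw [norm_zero]; exact zero_le_one)
    have h2 := abs_le.1 (hWg a heq)
    rw [heq, norm_zero] at h1
    have hV : Differentiable ℂ fun z : ℂ => W z - ((e / 3 : ℝ) : ℂ) := hW.sub_const _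
    have h3 := eloc_ge one_pos hg1 hV fun z hz => by
      have h4 := abs_le.1 (hWg z hz)
      rw [Complex.sub_re, Complex.ofReal_re]
      linarith [h4.2]
    rw [Complex.sub_re, Complex.ofReal_re] at h3
    linarith [h2.1]

theorem SubM.wsub {w : E n → ℝ} {U : Set (E n)} (h : SubM w U) {y : E n} (hU : U ∈ 𝓝 y) :
    WSub w y := by
  intro f hf hf0 δ hδ
  have hc : ContinuousAt f 0 := hf.self_of_nhds.continuousAt
  have hU' : ∀ᶠ z in 𝓝 (0 : ℂ), f z ∈ U := hc.eventually (by rw [hf0]; exact hU)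
  obtain ⟨ρ, hρ, hb⟩ := Metric.eventually_nhds_iff.1 (hf.and hU')
  have hev : ∀ᶠ r in 𝓝[>] (0 : ℝ), r ∈ Ioo 0 ρ := Ioo_mem_nhdsGT hρ
  refine Eventually.frequently ?_
  filter_upwards [hev] with r hr
  have h1 := h (fun z => f (r * z + 0)) fun z hz => by
    have h2 : dist ((r : ℂ) * z + 0) 0 < ρ := by
      rw [dist_zero_right, add_zero, norm_mul, Complex.norm_real, Real.norm_eq_abs,
        abs_of_pos hr.1]
      exact lt_of_le_of_lt (mul_le_of_le_one_right hr.1.le hz) hr.2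
    exact ⟨DifferentiableAt.comp (g := f) (f := fun z : ℂ => (r : ℂ) * z + 0) z (hb h2).1
      ((differentiableAt_id.const_mul _).add_const _), (hb h2).2⟩
  rw [Real.circleAverage_eq_circleAverage_zero_one]
  rw [mul_zero, add_zero, hf0] at h1
  have h3 : 0 ≤ δ * r ^ 2 := by positivity
  linarith

end Vale.Agent.P272
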