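import Vale.Agent.P272.F.E.Defs

/-! P272 F/E/Sel (task, block E of helper1). Helper names start with `esel_`.
Plan. `m z = sInf (g z '' Icc a b)` is continuous (`IsCompact.continuous_sInf`). Measurable near optimal choice: `q : ℕ → ℝ` dense in `Icc a b` (`TopologicalSpace.denseSeq (Icc a b)`), for each `z` some `i` has `g z (q i) < m z + η`; `σ z = q (Nat.find _)` is measurable (`Measurable.find`) and bounded. `μ = Measure.map (circleMap 0 1) (volume.restrict (Ioc 0 (2π)))` is a finite measure on `ℂ`; `Integrable.exists_boundedContinuous_integral_sub_le` gives a continuous `s₀` close to `σ` in `L¹ μ`; `s z = max a (min b (s₀ z))` has `|s - σ| ≤ |s₀ - σ|`. On the compact set `sphere 0 1 ×ˢ Icc a b`, `|g| ≤ M` and uniform continuity give `g z t ≤ g z t' + η + (2 M / ρ) |t - t'|`. Integrate `g z (s z) ≤ m z + 2 η + (2 M / ρ) |s₀ z - σ z|`. -/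

open Metric Set Filter Topology Complex MeasureTheory
open scoped ContDiff

noncomputable section

namespace Vale.Agent.P272

theorem esel_clamp {a b t : ℝ} (h : t ∈ Icc a b) (u : ℝ) : |max a (min b u) - t| ≤ |t - u| := by
  obtain ⟨h1, h2⟩ := h
  have h3 := le_abs_self (t - u)
  have h4 := neg_abs_le (t - u)
  have h5 := abs_nonneg (t - u)
  rw [abs_le, max_def, min_def]
  split_ifs <;> constructor <;> linarith

theorem esel_uc {g : ℂ → ℝ → ℝ} (hg : Continuous fun p : ℂ × ℝ => g p.1 p.2) (a b : ℝ) {η : ℝ}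
    (hη : 0 < η) : ∃ c : ℝ, 0 < c ∧ ∀ z ∈ sphere (0 : ℂ) 1, ∀ t ∈ Icc a b, ∀ t' ∈ Icc a b,
      g z t ≤ g z t' + η + c * |t - t'| := by
  have hK : IsCompact (sphere (0 : ℂ) 1 ×ˢ Icc a b) := (isCompact_sphere 0 1).prod isCompact_Icc
  obtain ⟨M, hM⟩ := hK.exists_bound_of_continuousOn hg.continuousOn
  obtain ⟨ρ, hρ, hu⟩ := Metric.uniformContinuousOn_iff.1
    (hK.uniformContinuousOn_of_continuous hg.continuousOn) η hη
  refine ⟨(2 * |M| + 1) / ρ, by positivity, fun z hz t ht t' ht' => ?_⟩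
  have h0 : 0 ≤ (2 * |M| + 1) / ρ * |t - t'| := by positivity
  by_cases h : |t - t'| < ρ
  · have h1 := hu (z, t) ⟨hz, ht⟩ (z, t') ⟨hz, ht'⟩ (by
      rw [Prod.dist_eq, dist_self]
      exact max_lt hρ h)
    have h2 := (abs_lt.1 h1).2
    linarith
  · have h1 := (abs_le.1 (hM (z, t) ⟨hz, ht⟩)).2
    have h2 := (abs_le.1 (hM (z, t') ⟨hz, ht'⟩)).1
    have h3 := le_abs_self M
    have h4 := mul_le_mul_of_nonneg_left (not_lt.1 h) (show 0 ≤ (2 * |M| + 1) / ρ by positivity)
    rw [div_mul_cancel₀ _ hρ.ne'] at h4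
    linarith

theorem esel_meas {g : ℂ → ℝ → ℝ} (hg : Continuous fun p : ℂ × ℝ => g p.1 p.2) {a b η : ℝ}
    (hab : a ≤ b) (hη : 0 < η) : ∃ σ : ℂ → ℝ, Measurable σ ∧ (∀ z, σ z ∈ Icc a b) ∧
      ∀ z, g z (σ z) < sInf (g z '' Icc a b) + η := by
  classical
  have hm : Continuous fun z => sInf (g z '' Icc a b) := isCompact_Icc.continuous_sInf hg
  have : Nonempty (Icc a b) := ⟨⟨a, left_mem_Icc.2 hab⟩⟩
  have h : ∀ z, ∃ i, g z (TopologicalSpace.denseSeq (Icc a b) i) < sInf (g z '' Icc a b) + η := by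
    intro z
    obtain ⟨_, ⟨t, ht, rfl⟩, h1⟩ := exists_lt_of_csInf_lt ((nonempty_Icc.2 hab).image (g z))
      (lt_add_of_pos_right _ hη)
    exact (TopologicalSpace.denseRange_denseSeq (Icc a b)).exists_mem_open
      (isOpen_lt (hg.comp (continuous_const.prodMk continuous_subtype_val)) continuous_const)
      ⟨⟨t, ht⟩, h1⟩
  refine ⟨fun z => TopologicalSpace.denseSeq (Icc a b) (Nat.find (h z)), ?_, fun z => Subtype.prop _,
    fun z => Nat.find_spec (h z)⟩
  exact Measurable.find (f := fun i (_ : ℂ) => (TopologicalSpace.denseSeq (Icc a b) i : ℝ))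
    (fun _ => measurable_const) (fun i => (isOpen_lt (hg.comp (continuous_id.prodMk continuous_const))
      (hm.add continuous_const)).measurableSet) h

theorem sel_cont {g : ℂ → ℝ → ℝ} (hg : Continuous fun p : ℂ × ℝ => g p.1 p.2) {a b ε : ℝ}
    (hab : a ≤ b) (hε : 0 < ε) : ∃ s : ℂ → ℝ, Continuous s ∧ (∀ z, s z ∈ Icc a b) ∧
      Real.circleAverage (fun z => g z (s z)) 0 1 ≤
        Real.circleAverage (fun z => sInf (g z '' Icc a b)) 0 1 + ε := by
  have hm : Continuous fun z => sInf (g z '' Icc a b) := isCompact_Icc.continuous_sInf hg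
  have hη : 0 < ε / 4 := by positivity
  have hπ := Real.two_pi_pos
  obtain ⟨c, hc, hu⟩ := esel_uc hg a b hη
  obtain ⟨σ, hσ, hσ1, hσ2⟩ := esel_meas hg hab hη
  have hcm := continuous_circleMap 0 1
  obtain ⟨μ, hμ⟩ : ∃ μ : Measure ℂ,
    μ = Measure.map (circleMap 0 1) (volume.restrict (Ioc 0 (2 * Real.pi))) := ⟨_, rfl⟩
  have : IsFiniteMeasure μ := by rw [hμ]; infer_instance
  have hi : Integrable σ μ := Integrable.of_bound hσ.aestronglyMeasurable (|a| + |b|)
    (Eventually.of_forall fun z => by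
      obtain ⟨h1, h2⟩ := hσ1 z
      have h3 := neg_abs_le a
      have h4 := le_abs_self b
      have h5 := abs_nonneg a
      have h6 := abs_nonneg b
      exact abs_le.2 ⟨by linarith, by linarith⟩)
  obtain ⟨s₀, h1, h2⟩ := hi.exists_boundedContinuous_integral_sub_le
    (show 0 < 2 * Real.pi * (ε / 2) / c by positivity)
  have hs : Continuous fun z => max a (min b (s₀ z)) :=
    continuous_const.max (continuous_const.min s₀.continuous)
  have hs1 : ∀ z, max a (min b (s₀ z)) ∈ Icc a b := fun z =>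
    ⟨le_max_left _ _, max_le hab (min_le_left _ _)⟩
  refine ⟨_, hs, hs1, ?_⟩
  have h3 : Integrable (fun z => ‖σ z - s₀ z‖) μ := (hi.sub h2).norm
  rw [hμ] at h1 h3
  rw [integral_map hcm.aemeasurable h3.aestronglyMeasurable] at h1
  have h4 := (integrable_map_measure h3.aestronglyMeasurable hcm.aemeasurable).1 h3
  have i1 : IntegrableOn (fun θ => g (circleMap 0 1 θ) (max a (min b (s₀ (circleMap 0 1 θ)))))
      (Ioc 0 (2 * Real.pi)) :=
    ((hg.comp (hcm.prodMk (hs.comp hcm))).integrableOn_Icc).mono_set Ioc_subset_Icc_self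
  have i2 : IntegrableOn (fun θ => sInf (g (circleMap 0 1 θ) '' Icc a b)) (Ioc 0 (2 * Real.pi)) :=
    ((hm.comp hcm).integrableOn_Icc).mono_set Ioc_subset_Icc_self
  have i3 : IntegrableOn (fun _ : ℝ => ε / 2) (Ioc 0 (2 * Real.pi)) := integrable_const _
  have i4 : IntegrableOn (fun θ => c * ‖σ (circleMap 0 1 θ) - s₀ (circleMap 0 1 θ)‖)
      (Ioc 0 (2 * Real.pi)) := h4.const_mul c
  have i5 : IntegrableOn (fun θ => sInf (g (circleMap 0 1 θ) '' Icc a b) + ε / 2)
      (Ioc 0 (2 * Real.pi)) := i2.add i3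
  have h5 : ∫ θ in Ioc 0 (2 * Real.pi), g (circleMap 0 1 θ) (max a (min b (s₀ (circleMap 0 1 θ)))) ≤
      ∫ θ in Ioc 0 (2 * Real.pi), (sInf (g (circleMap 0 1 θ) '' Icc a b) + ε / 2 +
        c * ‖σ (circleMap 0 1 θ) - s₀ (circleMap 0 1 θ)‖) := by
    refine integral_mono i1 (i5.add i4) fun θ => ?_
    have h6 := hu _ (circleMap_mem_sphere 0 zero_le_one θ) _ (hs1 (circleMap 0 1 θ)) _
      (hσ1 (circleMap 0 1 θ))
    have h7 := hσ2 (circleMap 0 1 θ)
    have h8 := mul_le_mul_of_nonneg_left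
      (esel_clamp (hσ1 (circleMap 0 1 θ)) (s₀ (circleMap 0 1 θ))) hc.le
    simp only [Real.norm_eq_abs]
    linarith
  rw [integral_add i5 i4, integral_add i2 i3, integral_const_mul, setIntegral_const,
    Real.volume_real_Ioc_of_le hπ.le, sub_zero, smul_eq_mul] at h5
  have h6 := mul_le_mul_of_nonneg_left h1 hc.le
  rw [mul_div_cancel₀ _ hc.ne'] at h6
  rw [Real.circleAverage_def, Real.circleAverage_def, intervalIntegral.integral_of_le hπ.le,
    intervalIntegral.integral_of_le hπ.le, smul_eq_mul, smul_eq_mul, inv_mul_le_iff₀ hπ, mul_add,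
    mul_inv_cancel_left₀ hπ.ne']
  linarith

end Vale.Agent.P272
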