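import Vale.Agent.P272.F.E.Lip

/-! P272 F/E/Semi (task, block E of helper1). Helper names start with `esemi_`.
Plan. `step` with `σ = -1`, `p = envF τ u` (`env_fam`), `d = ‖h‖ / κ`, `c = C₂ d^2`, `C₂ = C + Λ L`, for `d ≤ min d₀ d₁` and `K C₂ d ≤ 1` (`d₀, L` from `trn`, `Λ, d₁` from `env_lip`, `d ≤ 1`). Charts: `h' = tr k j x h`; for both signs `loc p j (y_j ± h) = loc p k (T (y_j ± h))` (`left_inv`) and `T (y_j ± h) = (y_k ± h') + e`, `‖e‖ ≤ L ‖h‖^2 ≤ d`, `‖y_k ± h'‖ ≤ 2`, so `env_lip` gives the error `Λ L ‖h‖^2 ≤ c`. The case `h = 0` is trivial. -/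

open Metric Set Filter Topology Complex
open scoped ContDiff

noncomputable section

namespace Vale.Agent.P272

variable {n : ℕ} {X : Type} [TopologicalSpace X] [T2Space X] {A : Atl n X}

theorem Atl.env_semi (τ : A.Pot) (hτ : τ.Pos) {u : X → ℝ} (hu : A.Sm u) : ∃ K d : ℝ, 0 ≤ K ∧
    0 < d ∧ d ≤ 1 ∧ ∀ j y h, ‖y‖ ≤ 2 → ‖h‖ ≤ d →
      sy (A.loc (Atl.envF τ u) j) (-1) y h ≤ A.loc (Atl.envF τ u) j y + K * ‖h‖ ^ 2 := by
  obtain ⟨d0, L, a0, a1, hL, ht⟩ := A.trn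
  obtain ⟨Λ, d1, hΛ, b0, hl⟩ := Atl.env_lip τ hτ hu
  obtain ⟨C, m, hC, -, -, -, hs⟩ := Atl.smb τ hτ hu
  obtain ⟨K, κ, hK, k0, k1, hst⟩ := Atl.step τ hτ hu hL
  have hΛL : 0 < Λ * L := by positivity
  have hC2 : 0 < C + Λ * L := by positivity
  have hKC : 0 < K * (C + Λ * L) := by positivity
  have hd : 0 < min (min d0 d1) (1 / (K * (C + Λ * L))) := by positivity
  have hd1 : min (min d0 d1) (1 / (K * (C + Λ * L))) ≤ 1 :=
    ((min_le_left _ _).trans (min_le_left _ _)).trans a1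
  refine ⟨K * (C + Λ * L) / κ ^ 2, κ * min (min d0 d1) (1 / (K * (C + Λ * L))), by positivity,
    by positivity, mul_le_one₀ k1 hd.le hd1, fun j y h hy hh => ?_⟩
  rcases eq_or_ne h 0 with rfl | h0
  · simp [sy]
  obtain ⟨d, hde⟩ : ∃ d, d = ‖h‖ / κ := ⟨_, rfl⟩
  have c0 : 0 < d := hde ▸ div_pos (norm_pos_iff.2 h0) k0
  have c1 : d ≤ min (min d0 d1) (1 / (K * (C + Λ * L))) := by rwa [hde, div_le_iff₀' k0]
  simp only [le_min_iff] at c1
  have c2 : d ≤ 1 := c1.1.1.trans a1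
  have c3 : K * (C + Λ * L) * d ≤ 1 := (le_div_iff₀' hKC).1 c1.2
  have key : ∀ j k x g, A.In j 2 x → A.In k 1 x → L * ‖g‖ ≤ d →
      A.loc (Atl.envF τ u) j (A.e j x + g) ≤
        A.loc (Atl.envF τ u) k (A.e k x + A.tr k j x g) + (C + Λ * L) * d ^ 2 := by
    intro j k x g hj hk hg
    have g0 := norm_nonneg g
    have g1 : ‖g‖ ≤ d := (le_mul_of_one_le_left g0 hL).trans hg
    obtain ⟨e1, e2, -, e4⟩ := ht j k x hj ⟨hk.1, hk.2.trans one_le_two⟩ g (g1.trans c1.1.1)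
    have g2 : ‖g‖ ^ 2 ≤ d ^ 2 := pow_le_pow_left₀ g0 g1 2
    have e5 := hl k (A.e k x + A.tr k j x g)
      (A.e k ((A.e j).symm (A.e j x + g)) - A.e k x - A.tr k j x g)
      ((norm_add_le _ _).trans (by linarith [hk.2])) (e4.trans (by nlinarith [c1.1.2]))
    rw [sub_sub, add_sub_cancel, Atl.loc, (A.e k).left_inv e2, ← sub_sub] at e5
    have e6 := mul_le_mul_of_nonneg_left (e4.trans (mul_le_mul_of_nonneg_left g2 (by linarith)))
      (by linarith : 0 ≤ Λ)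
    have e7 : 0 ≤ C * d ^ 2 := by positivity
    exact e5.trans (by linarith)
  refine (hst (-1) ((C + Λ * L) * d ^ 2) d _ (by simp) (by positivity) (by nlinarith) c0 c2
    (Atl.env_fam τ hτ hu) (fun j k x g hj hk hg => ⟨A.tr k j x g, ?_, ?_⟩) (fun j y g hy hg => ?_)
    j y h hy (sub_le_self _ (by positivity)) (by rw [hde, mul_div_cancel₀ _ k0.ne'])).trans
    (le_of_eq ?_)
  · exact (ht j k x hj ⟨hk.1, hk.2.trans one_le_two⟩ g
      (((le_mul_of_one_le_left (norm_nonneg g) hL).trans hg).trans c1.1.1)).1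
  · have e1 := key j k x g hj hk hg
    have e2 := key j k x (-g) hj hk (by rwa [norm_neg])
    rw [map_neg] at e2
    simp only [sy, neg_one_smul]
    linarith
  · obtain ⟨-, e1, e2⟩ := hs j y g (by linarith) (hg.trans c2)
    have g2 : C * ‖g‖ ^ 2 ≤ (C + Λ * L) * d ^ 2 := mul_le_mul (by linarith)
      (pow_le_pow_left₀ (norm_nonneg g) hg 2) (by positivity) hC2.le
    exact ⟨e1.trans g2, by linarith⟩
  · rw [hde]
    ring

end Vale.Agent.P272
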