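import Vale.Agent.P272.F.E.Key
import Vale.Agent.P272.F.E.KS

/-! P272 F/E/Step (task, block E of helper1). Helper names start with `estep_`.
Plan. `K₀` from `key`, `l = log L ≥ 0`, `K = K₀ (3 + l) + 1`, `κ = exp (- K)`. `w j` = `exists_ext` of `τ.u j + loc p j` (`SubM (w j) (ball 0 4)` from `Fam.subm`, `circleAverage_congr_sphere`), `b = log d ≤ 0`, `a < b` with `kS_small` for all `j`, `g j = kF (w j) σ c a b`, `D = (3 + l) c`. For `‖y‖ ≤ 3`, `‖h‖ ≤ 1`: `sy (w j) σ y h = sy (τ.u j) σ y h + sy (loc p j) σ y h`. Upper bound: `kF_le` at `b`, `kS_le`, `p ≤ u` gives `g j ≤ τ.u j + loc u j + 2 c`. Charts: `kF_cmp` with `t = τ.u j (e j x) - τ.u k (e k x) + 3 c` (`‖h‖ ≤ exp (s - l)` gives `L ‖h‖ ≤ exp s ≤ d`; `loc p j (e j x) = p x`). At the end `kF_eq` gives `s` with `kS + c (b - s) ≤ τ.u j + env + K₀ D`; `le_kS` with `h = 0` gives `b - s ≤ K`, so `κ d ≤ exp s`; `le_kS` again. -/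

open Metric Set Filter Topology Complex
open scoped ContDiff

noncomputable section

namespace Vale.Agent.P272

variable {n : ℕ} {X : Type} [TopologicalSpace X] [T2Space X] {A : Atl n X}

theorem Atl.step (τ : A.Pot) (hτ : τ.Pos) {u : X → ℝ} (hu : A.Sm u) {L : ℝ} (hL : 1 ≤ L) :
    ∃ K κ : ℝ, 1 ≤ K ∧ 0 < κ ∧ κ ≤ 1 ∧ ∀ (σ c d : ℝ) (p : X → ℝ), |σ| ≤ 1 → 0 < c → K * c ≤ 1 →
      0 < d → d ≤ 1 → Atl.Fam τ u p →
      (∀ j k x h, A.In j 2 x → A.In k 1 x → L * ‖h‖ ≤ d → ∃ h', ‖h'‖ ≤ L * ‖h‖ ∧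
        sy (A.loc p j) σ (A.e j x) h ≤ sy (A.loc p k) σ (A.e k x) h' + c) →
      (∀ j y h, ‖y‖ ≤ 2 → ‖h‖ ≤ d → |sy (τ.u j) σ y h - τ.u j y| ≤ c ∧
        sy (A.loc u j) σ y h ≤ A.loc u j y + c) →
      ∀ j y h, ‖y‖ ≤ 2 → A.loc (Atl.envF τ u) j y - c ≤ A.loc p j y → ‖h‖ ≤ κ * d →
        sy (A.loc p j) σ y h ≤ A.loc (Atl.envF τ u) j y + K * c := by
  obtain ⟨K₀, hK₀, key⟩ := Atl.key τ hτ hu
  have hl : 0 ≤ Real.log L := Real.log_nonneg hL
  have hK : 1 ≤ K₀ * (3 + Real.log L) + 1 := le_add_of_nonneg_left (by positivity)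
  have hκ : Real.exp (-(K₀ * (3 + Real.log L) + 1)) ≤ 1 := Real.exp_le_one_iff.2 (by linarith)
  refine ⟨_, _, hK, Real.exp_pos _, hκ, fun σ c d p hσ hc hKc hd hd1 hp H1 H2 j y h hy he hh => ?_⟩
  choose w hw ew using fun j => exists_ext
    (((τ.sm j).continuousOn.add (Atl.loc_cont hp.1 j)).mono (A.tgt j))
  replace ew : ∀ j y, ‖y‖ ≤ 4 → w j y = τ.u j y + A.loc p j y := ew
  have hs : ∀ j, SubM (w j) (ball 0 4) := fun j f hf => by
    have h1 := hp.subm j f fun z hz => ⟨(hf z hz).1, A.tgt j (ball_subset_closedBall (hf z hz).2)⟩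
    have h2 : ∀ z, ‖z‖ ≤ 1 → w j (f z) = τ.u j (f z) + A.loc p j (f z) := fun z hz =>
      ew j _ (mem_ball_zero_iff.1 (hf z hz).2).le
    rw [h2 0 (by simp), Real.circleAverage_congr_sphere (f₂ := fun z => τ.u j (f z) + A.loc p j (f z))
      fun z hz => h2 z (by simpa using (mem_sphere_zero_iff_norm.1 hz).le)]
    exact h1
  have hsy : ∀ j y h, ‖y‖ ≤ 2 → ‖h‖ ≤ d →
      sy (w j) σ y h = sy (τ.u j) σ y h + sy (A.loc p j) σ y h := fun j y h hy hh => by
    have h1 : ‖σ • h‖ ≤ ‖h‖ := by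
      rw [norm_smul]
      exact mul_le_of_le_one_left (norm_nonneg _) hσ
    rw [sy, sy, sy, ew j _ (by linarith [norm_add_le y h]), ew j _ (by linarith [norm_add_le y (σ • h)])]
    ring
  have eb := Real.exp_log hd
  obtain ⟨a, ha, hab⟩ := ((eventually_all.2 fun j => kS_small (hw j) hσ hc).and
    (eventually_lt_atBot (Real.log d))).exists
  have h1 := key (fun j => kF (w j) σ c a (Real.log d)) ((3 + Real.log L) * c) (by positivity)
    (by linarith) (fun j => ⟨kF_cont (hw j) _ _ _ _,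
      kF_subm (hw j) (hs j) hσ c hab (Real.log_nonpos hd.le hd1)⟩) (fun j k x hj hk => ?_)
    (fun j y hy => ?_) j y hy
  · obtain ⟨s, hs1, hs2⟩ := kF_eq (hw j) σ c y hab.le
    have h2 := le_kS (hw j) σ y (s := s) (h := 0) (by simpa using (Real.exp_pos s).le)
    rw [sy, smul_zero, add_zero, ew j y (by linarith)] at h2
    simp only [hs2] at h1
    have h3 : Real.log d - s ≤ K₀ * (3 + Real.log L) + 1 :=
      le_of_mul_le_mul_left (by linarith) hc
    have h4 : ‖h‖ ≤ Real.exp s := by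
      refine hh.trans ?_
      rw [← eb, ← Real.exp_add]
      exact Real.exp_le_exp.2 (by linarith)
    have h5 : ‖h‖ ≤ d := hh.trans (mul_le_of_le_one_left hd.le hκ)
    have h6 := le_kS (hw j) σ y h4
    rw [hsy j y h hy h5] at h6
    linarith [(abs_le.1 (H2 j y h hy h5).1).1, mul_nonneg hc.le (sub_nonneg.2 hs1.2)]
  · have hk2 : ‖A.e k x‖ ≤ 2 := hk.2.trans one_le_two
    have h2 := kF_cmp (hw j) (hw k) (σ := σ) (y := A.e j x) (y' := A.e k x)
      (t := τ.u j (A.e j x) - τ.u k (A.e k x) + 3 * c) hc.le hl hab.le (fun s hs => ?_) ?_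
    · linarith
    · refine kS_le fun h hh => ?_
      rw [Real.exp_sub, Real.exp_log (by linarith), le_div_iff₀' (by linarith)] at hh
      have h3 : L * ‖h‖ ≤ d := hh.trans ((Real.exp_le_exp.2 hs).trans eb.le)
      have h4 : ‖h‖ ≤ d := (le_mul_of_one_le_left (norm_nonneg _) hL).trans h3
      obtain ⟨h', h5, h6⟩ := H1 j k x h hj hk h3
      have h7 := le_kS (hw k) σ (A.e k x) (h5.trans hh)
      rw [hsy k _ h' hk2 (h5.trans h3)] at h7
      rw [hsy j _ h hj.2 h4]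
      linarith [(abs_le.1 (H2 j _ h hj.2 h4).1).2, (abs_le.1 (H2 k _ h' hk2 (h5.trans h3)).1).1]
    · have h3 := ha j (A.e j x) (by linarith [hj.2])
      rw [ew j _ (by linarith [hj.2]), Atl.loc, (A.e j).left_inv hj.1] at h3
      rw [ew k _ (by linarith), Atl.loc, (A.e k).left_inv hk.1]
      linarith
  · have h2 := kF_le (hw j) σ c y (right_mem_Icc.2 hab.le)
    have h3 : kS (w j) σ y (Real.log d) ≤ τ.u j y + A.loc u j y + 2 * c := kS_le fun h hh => by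
      rw [eb] at hh
      have h4 : sy (A.loc p j) σ y h ≤ sy (A.loc u j) σ y h :=
        div_le_div_of_nonneg_right (add_le_add (hp.2.1 _) (hp.2.1 _)) zero_le_two
      rw [hsy j y h hy hh]
      linarith [(abs_le.1 (H2 j y h hy hh).1).2, (H2 j y h hy hh).2]
    rw [sub_self, mul_zero, add_zero] at h2
    nlinarith [mul_nonneg hl hc.le]

end Vale.Agent.P272
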