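import Vale.Agent.P272.F.E.WS
import Vale.Agent.P272.F.E.Loc

/-! P272 F/E/Tr (task, block E of helper1). Helper names start with `etr_`.
Plan. `psh_of_chart`: for a disc `f` at `e k x` put `g = e j ∘ (e k).symm ∘ f`, holomorphic near `0` (`A.hol` holds at all points of the open set `source j ∩ source k`), `deriv g 0 = A.tr j k x (deriv f 0)`, `loc p j (g z) = loc p k (f z)` near `0` (`left_inv`). Use `WSub` in chart `j` for `g` with `δ / 3`, `TwD.avg` for `τ.u j` along `g` and for `τ.u k` along `f` (`twd_of_smooth`, `τ.sm`, open target), `τ.cmp`, `ctn_ev` for integrability, `circleAverage_fun_add`, `circleAverage_congr_sphere`. `of_le`: `WSub.of_le`, transport `∀ᶠ` along `(e j).symm` (`OpenPartialHomeomorph.continuousAt_symm`). `subm`: `subm_of_wsub`. -/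

open Metric Set Filter Topology Complex
open scoped ContDiff

noncomputable section

namespace Vale.Agent.P272

variable {n : ℕ} {X : Type} [TopologicalSpace X] {A : Atl n X}

theorem etr_ev {P : X → Prop} {x : X} (h : ∀ᶠ x' in 𝓝 x, P x') {j : Fin A.N}
    (hj : x ∈ (A.e j).source) :
    ∀ᶠ y in 𝓝 (A.e j x), y ∈ (A.e j).target ∧ P ((A.e j).symm y) :=
  Eventually.and ((A.e j).open_target.mem_nhds ((A.e j).map_source hj))
    (((A.e j).tendsto_symm hj).eventually h)

theorem etr_twd (τ : A.Pot) {x : X} {j : Fin A.N} (hj : x ∈ (A.e j).source) :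
    TwD (τ.u j) (A.e j x) :=
  twd_of_smooth ((τ.sm j).contDiffAt ((A.e j).open_target.mem_nhds ((A.e j).map_source hj)))

theorem etr_loc (p : X → ℝ) {x : X} {j : Fin A.N} (hj : x ∈ (A.e j).source) :
    A.loc p j (A.e j x) = p x :=
  congrArg p ((A.e j).left_inv hj)

theorem Atl.loc_ctn {p : X → ℝ} {x : X} (hp : CtN p x) {j : Fin A.N} (hj : x ∈ (A.e j).source) :
    CtN (A.loc p j) (A.e j x) :=
  (etr_ev hp hj).mono fun _ hy => hy.2.comp ((A.e j).continuousAt_symm hy.1)

theorem Atl.loc_cont {p : X → ℝ} (hp : Continuous p) (j : Fin A.N) :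
    ContinuousOn (A.loc p j) (A.e j).target :=
  hp.comp_continuousOn (A.e j).continuousOn_symm

theorem etr_ctn (τ : A.Pot) {p : X → ℝ} {x : X} (hp : CtN p x) {j : Fin A.N}
    (hj : x ∈ (A.e j).source) : CtN (fun y => τ.u j y + A.loc p j y) (A.e j x) :=
  (Eventually.and (etr_twd τ hj).ctn (Atl.loc_ctn hp hj)).mono fun _ hy => hy.1.add hy.2

theorem Atl.psh_of_chart (τ : A.Pot) {p : X → ℝ} {x : X} {j : Fin A.N} (hp : CtN p x)
    (hj : x ∈ (A.e j).source) (h : WSub (fun y => τ.u j y + A.loc p j y) (A.e j x)) :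
    Atl.Psh τ p x := by
  intro k hk f hf h0 δ hδ
  have e1 : ∀ᶠ y in 𝓝 (A.e k x), DifferentiableAt ℂ (A.e j ∘ (A.e k).symm) y ∧
      A.loc p j (A.e j ((A.e k).symm y)) = A.loc p k y := by
    filter_upwards [etr_ev (P := fun x' => x' ∈ (A.e j).source)
      ((A.e j).open_source.mem_nhds hj) hk] with y hy
    have h1 := A.hol j k _ hy.2 ((A.e k).map_target hy.1)
    rw [(A.e k).right_inv hy.1] at h1
    exact ⟨h1, etr_loc p hy.2⟩
  have ft : Tendsto f (𝓝 0) (𝓝 (A.e k x)) := h0 ▸ hf.self_of_nhds.continuousAt.tendsto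
  have hg : ∀ᶠ z in 𝓝 (0 : ℂ), DifferentiableAt ℂ (fun z => A.e j ((A.e k).symm (f z))) z := by
    filter_upwards [hf, ft.eventually e1] with z h1 h2
    exact h2.1.comp z h1
  have g0 : (fun z => A.e j ((A.e k).symm (f z))) 0 = A.e j x := by
    simp only [h0, (A.e k).left_inv hk]
  have gd : deriv (fun z => A.e j ((A.e k).symm (f z))) 0 = A.tr j k x (deriv f 0) := by
    have h1 := e1.self_of_nhds.1.hasFDerivAt
    have h2 := h1.comp_hasDerivAt_of_eq 0 hf.self_of_nhds.hasDerivAt h0.symm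
    exact h2.deriv
  have hδ' : 0 < δ / 3 := by positivity
  have a1 := (etr_twd τ hj).avg hg g0 hδ'
  have a2 := (etr_twd τ hk).avg hf h0 hδ'
  have c1 := ctn_ev (etr_twd τ hj).ctn hg g0 (Eventually.of_forall fun _ => trivial)
  have c2 := ctn_ev (Atl.loc_ctn hp hj) hg g0 (Eventually.of_forall fun _ => trivial)
  have c3 := ctn_ev (etr_twd τ hk).ctn hf h0 e1
  have c4 := ctn_ev (Atl.loc_ctn hp hk) hf h0 e1
  refine ((h _ hg g0 _ hδ').and_eventually
    (a1.and (a2.and (c1.and (c2.and (c3.and c4)))))).mono ?_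
  rintro r ⟨h1, h2, h3, h4, h5, h6, h7⟩
  have h8 : Real.circleAverage (fun z => A.loc p j (A.e j ((A.e k).symm (f z)))) 0 r =
      Real.circleAverage (fun z => A.loc p k (f z)) 0 r :=
    Real.circleAverage_congr_sphere fun z hz => (h6.2 z hz).2
  rw [gd, ← τ.cmp j k x hj hk] at h2
  simp only [etr_loc p hj, etr_loc p hk] at h1 ⊢
  rw [Real.circleAverage_fun_add h4.1 h5.1, h8] at h1
  rw [Real.circleAverage_fun_add h6.1 h7.1]
  linarith [(abs_le.1 h2).2, (abs_le.1 h3).1]

theorem Atl.Psh.of_le {τ : A.Pot} {p q : X → ℝ} {x : X} (h : Atl.Psh τ p x) (hp : CtN p x)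
    (hq : CtN q x) (e : q x = p x) (le : ∀ᶠ x' in 𝓝 x, p x' ≤ q x') : Atl.Psh τ q x := by
  intro j hj
  refine (h j hj).of_le (etr_ctn τ hp hj) (etr_ctn τ hq hj) ?_ ?_
  · simp only [etr_loc p hj, etr_loc q hj, e]
  · filter_upwards [etr_ev le hj] with y hy
    exact add_le_add le_rfl hy.2

theorem Atl.Fam.subm {τ : A.Pot} {u p : X → ℝ} (h : Atl.Fam τ u p) (j : Fin A.N) :
    SubM (fun y => τ.u j y + A.loc p j y) (A.e j).target := by
  refine subm_of_wsub ((τ.sm j).continuousOn.add (Atl.loc_cont h.1 j)) fun y hy => ?_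
  have h1 := h.2.2 _ j ((A.e j).map_target hy)
  rwa [(A.e j).right_inv hy] at h1

end Vale.Agent.P272
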