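import Vale.Agent.P272.F.E.Avg

/-! P272 F/E/WS (task, block E of helper1). Helper names start with `ews_`.
Plan. All from `TwD.avg` and `ctn_ev` with `Frequently.and_eventually`, `circleAverage_fun_add`, `circleAverage_mono`, `circleAverage_fun_smul`. `levi_nonneg`: disc `z ↦ y + z • a`; `0 ≤ r^2 (levi + 2 δ)` for some `r > 0` and all `δ`. In `mul` use `δ / (c + 1)`. -/

open Metric Set Filter Topology Complex
open scoped ContDiff

noncomputable section

namespace Vale.Agent.P272

variable {n : ℕ}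

theorem ews_ctn {u : E n → ℝ} {y : E n} (h : TwD u y) : CtN u y :=
  h.1.mono fun _ hz => hz.continuousAt

theorem TwD.wsub {u : E n → ℝ} {y : E n} (h : TwD u y) (hl : ∀ a, 0 ≤ levi u y a) : WSub u y := by
  intro f hf h0 δ hδ
  refine Eventually.frequently ?_
  filter_upwards [h.avg hf h0 hδ] with r hr
  have h1 := (abs_le.1 hr).1
  have h2 := mul_nonneg (sq_nonneg r) (hl (deriv f 0))
  linarith

theorem WSub.levi_nonneg {u : E n → ℝ} {y : E n} (hw : WSub u y) (h : TwD u y) (a : E n) :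
    0 ≤ levi u y a := by
  have hd : ∀ z : ℂ, HasDerivAt (fun z : ℂ => y + z • a) a z := fun z => by
    simpa using ((hasDerivAt_id z).smul_const a).const_add y
  have hf : ∀ᶠ z in 𝓝 (0 : ℂ), DifferentiableAt ℂ (fun z : ℂ => y + z • a) z :=
    Eventually.of_forall fun z => (hd z).differentiableAt
  have h0 : (fun z : ℂ => y + z • a) 0 = y := by simp
  refine le_of_forall_pos_le_add fun ε hε => ?_
  have hδ : 0 < ε / 2 := by positivity
  obtain ⟨r, h1, h2, h3⟩ := ((hw _ hf h0 _ hδ).and_eventually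
    ((h.avg hf h0 hδ).and self_mem_nhdsWithin)).exists
  rw [(hd 0).deriv] at h2
  have h4 := (abs_le.1 h2).2
  have h5 : 0 < r ^ 2 := pow_pos h3 2
  refine le_of_mul_le_mul_left (a := r ^ 2) ?_ h5
  linarith

theorem WSub.add_twd {w u : E n → ℝ} {y : E n} (hw : WSub w y) (hc : CtN w y) (h : TwD u y)
    (hl : ∀ a, 0 ≤ levi u y a) : WSub (fun z => w z + u z) y := by
  intro f hf h0 δ hδ
  have hδ' : 0 < δ / 2 := by positivity
  refine ((hw f hf h0 _ hδ').and_eventually ((h.avg hf h0 hδ').and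
    ((ctn_ev hc hf h0 (P := fun _ => True) (Eventually.of_forall fun _ => trivial)).and
      (ctn_ev (ews_ctn h) hf h0 (P := fun _ => True)
        (Eventually.of_forall fun _ => trivial))))).mono ?_
  rintro r ⟨h1, h2, h3, h4⟩
  rw [Real.circleAverage_fun_add h3.1 h4.1]
  have h5 := (abs_le.1 h2).1
  have h6 := mul_nonneg (sq_nonneg r) (hl (deriv f 0))
  linarith

theorem WSub.of_le {w w' : E n → ℝ} {y : E n} (hw : WSub w y) (hc : CtN w y) (hc' : CtN w' y)
    (e : w' y = w y) (le : ∀ᶠ z in 𝓝 y, w z ≤ w' z) : WSub w' y := by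
  intro f hf h0 δ hδ
  refine ((hw f hf h0 _ hδ).and_eventually ((ctn_ev hc hf h0 le).and
    (ctn_ev hc' hf h0 le))).mono ?_
  rintro r ⟨h1, h2, h3⟩
  have h4 := Real.circleAverage_mono h2.1 h3.1 h2.2
  linarith

theorem WSub.mul {w : E n → ℝ} {y : E n} (hw : WSub w y) {c : ℝ} (hc : 0 ≤ c) :
    WSub (fun z => c * w z) y := by
  intro f hf h0 δ hδ
  have hδ' : 0 < δ / (c + 1) := by positivity
  refine (hw f hf h0 _ hδ').mono fun r hr => ?_
  have h1 : Real.circleAverage (fun z => c * w (f z)) 0 r =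
      c * Real.circleAverage (fun z => w (f z)) 0 r :=
    Real.circleAverage_fun_smul (a := c) (f := fun z => w (f z))
  have h2 : c * (δ / (c + 1)) ≤ δ := by
    rw [← mul_div_assoc, div_le_iff₀ (by positivity)]
    nlinarith
  have h3 := mul_le_mul_of_nonneg_left hr hc
  have h4 := mul_le_mul_of_nonneg_right h2 (sq_nonneg r)
  rw [h1]
  nlinarith

end Vale.Agent.P272
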